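import Mathlib

/-!
P065: from a chain of pairwise strongly separated sets to a sequence of adjacent swaps leading
from the identity to the reversal.
-/

namespace P065HP

/-- A chain `S 0, …, S T` of `k`-subsets of `Fin n`, consecutive sets distinct, such that for
`s < t` the elements lost between the times `s` and `t` are smaller than the elements gained. -/
structure SepChain (n k T : ℕ) where
  S : ℕ → Finset (Fin n)
  card_eq : ∀ t, t ≤ T → (S t).card = k
  ne : ∀ t, t < T → S t ≠ S (t + 1)
  sep : ∀ s t, s < t → t ≤ T → ∀ x, x ∈ S s \ S t → ∀ y, y ∈ S t \ S s → x < y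

variable {n : ℕ}

/-! ### Permutations with a given set of inversions -/

/-- The set of inversions of a permutation (given abstractly). -/
structure IsInv (I : Fin n → Fin n → Prop) : Prop where
  lt : ∀ i j, I i j → i < j
  trans : ∀ i j l, I i j → I j l → I i l
  cotrans : ∀ i j l, i < j → j < l → I i l → I i j ∨ I j l

/-- The order defined by a set of inversions. -/
def Rel (I : Fin n → Fin n → Prop) (i j : Fin n) : Prop :=
  (i < j ∧ ¬ I i j) ∨ (j < i ∧ I j i)

theorem rel_irrefl (I : Fin n → Fin n → Prop) (i : Fin n) : ¬ Rel I i i := by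
  rintro (⟨h, _⟩ | ⟨h, _⟩) <;> exact lt_irrefl _ h

theorem rel_total (I : Fin n → Fin n → Prop) {i j : Fin n} (h : i ≠ j) :
    Rel I i j ∨ Rel I j i := by
  rcases lt_or_gt_of_ne h with h1 | h1
  · by_cases h2 : I i j
    · exact Or.inr (Or.inr ⟨h1, h2⟩)
    · exact Or.inl (Or.inl ⟨h1, h2⟩)
  · by_cases h2 : I j i
    · exact Or.inl (Or.inr ⟨h1, h2⟩)
    · exact Or.inr (Or.inl ⟨h1, h2⟩)

theorem rel_trans {I : Fin n → Fin n → Prop} (hI : IsInv I) {i j l : Fin n}
    (h1 : Rel I i j) (h2 : Rel I j l) : Rel I i l := by
  rcases h1 with ⟨a1, b1⟩ | ⟨a1, b1⟩ <;> rcases h2 with ⟨a2, b2⟩ | ⟨a2, b2⟩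
  · left
    refine ⟨a1.trans a2, fun h => ?_⟩
    rcases hI.cotrans i j l a1 a2 h with h | h
    · exact b1 h
    · exact b2 h
  · rcases lt_trichotomy i l with h | h | h
    · left
      exact ⟨h, fun h' => b1 (hI.trans i l j h' b2)⟩
    · subst h
      exact absurd b2 b1
    · right
      refine ⟨h, ?_⟩
      rcases hI.cotrans l i j h a1 b2 with h' | h'
      · exact h'
      · exact absurd h' b1
  · rcases lt_trichotomy i l with h | h | h
    · left
      exact ⟨h, fun h' => b2 (hI.trans j i l b1 h')⟩
    · subst h
      exact absurd b1 b2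
    · right
      refine ⟨h, ?_⟩
      rcases hI.cotrans j l i a2 h b1 with h' | h'
      · exact absurd h' b2
      · exact h'
  · right
    exact ⟨a2.trans a1, hI.trans l j i b2 b1⟩

theorem rel_asymm {I : Fin n → Fin n → Prop} (hI : IsInv I) {i j : Fin n}
    (h1 : Rel I i j) : ¬ Rel I j i := fun h2 => rel_irrefl I i (rel_trans hI h1 h2)

open Classical in
/-- Position of an element. -/
noncomputable def posN (I : Fin n → Fin n → Prop) (i : Fin n) : ℕ :=
  (Finset.univ.filter (fun j => Rel I j i)).card

open Classical in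
theorem posN_lt (I : Fin n → Fin n → Prop) (i : Fin n) : posN I i < n := by
  unfold posN
  have h : (Finset.univ.filter (fun j => Rel I j i)) ⊂ (Finset.univ : Finset (Fin n)) := by
    refine (Finset.filter_ssubset).2 ⟨i, Finset.mem_univ _, rel_irrefl I i⟩
  simpa using Finset.card_lt_card h

open Classical in
theorem posN_lt_of_rel {I : Fin n → Fin n → Prop} (hI : IsInv I) {i j : Fin n}
    (h : Rel I i j) : posN I i < posN I j := by
  unfold posN
  apply Finset.card_lt_card
  rw [Finset.ssubset_iff_of_subset]
  · refine ⟨i, ?_, ?_⟩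
    · simpa using h
    · simpa using rel_irrefl I i
  · intro x hx
    simp only [Finset.mem_filter, Finset.mem_univ, true_and] at hx ⊢
    exact rel_trans hI hx h

theorem posN_lt_iff {I : Fin n → Fin n → Prop} (hI : IsInv I) {i j : Fin n} :
    posN I i < posN I j ↔ Rel I i j := by
  refine ⟨fun h => ?_, posN_lt_of_rel hI⟩
  by_contra h1
  by_cases h2 : i = j
  · subst h2; exact lt_irrefl _ h
  · rcases rel_total I h2 with h3 | h3
    · exact h1 h3
    · exact lt_asymm h (posN_lt_of_rel hI h3)

/-- A permutation with a given set of inversions; `π p` is the element at the position `p`. -/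
theorem exists_perm {I : Fin n → Fin n → Prop} (hI : IsInv I) :
    ∃ π : Equiv.Perm (Fin n), ∀ i, (π.symm i : ℕ) = posN I i := by
  have hinj : Function.Injective (fun i : Fin n => (⟨posN I i, posN_lt I i⟩ : Fin n)) := by
    intro i j h
    by_contra h2
    have h3 : posN I i = posN I j := by simpa using congrArg Fin.val h
    rcases rel_total I h2 with h4 | h4
    · have := posN_lt_of_rel hI h4; omega
    · have := posN_lt_of_rel hI h4; omega
  refine ⟨(Equiv.ofBijective _ (Finite.injective_iff_bijective.1 hinj)).symm, fun i => ?_⟩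
  simp

/-! ### The inversions given by a chain -/

/-- Inversions before the time `t`. -/
def CInv (S : ℕ → Finset (Fin n)) (t : ℕ) (i j : Fin n) : Prop :=
  i < j ∧ ∃ u, u ≤ t ∧ j ∈ S u ∧ i ∉ S u

theorem cInv_mono (S : ℕ → Finset (Fin n)) {t t' : ℕ} (h : t ≤ t') {i j : Fin n}
    (h1 : CInv S t i j) : CInv S t' i j := by
  obtain ⟨h2, u, h3, h4⟩ := h1
  exact ⟨h2, u, h3.trans h, h4⟩

theorem isInv_cInv {k T : ℕ} (C : SepChain n k T) {t : ℕ} (ht : t ≤ T) :
    IsInv (CInv C.S t) where
  lt := fun i j h => h.1
  trans := by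
    rintro i j l ⟨hij, u, hu, hju, hiu⟩ ⟨hjl, v, hv, hlv, hjv⟩
    refine ⟨hij.trans hjl, ?_⟩
    by_cases h1 : l ∈ C.S u
    · exact ⟨u, hu, h1, hiu⟩
    by_cases h2 : i ∈ C.S v
    · rcases lt_trichotomy u v with h | h | h
      · have := C.sep u v h (hv.trans ht) j (by simp [hju, hjv]) i (by simp [h2, hiu])
        exact absurd this (lt_asymm hij)
      · subst h
        exact absurd hju hjv
      · have := C.sep v u h (hu.trans ht) l (by simp [hlv, h1]) j (by simp [hju, hjv])
        exact absurd this (lt_asymm hjl)
    · exact ⟨v, hv, hlv, h2⟩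
  cotrans := by
    rintro i j l hij hjl ⟨_, u, hu, hlu, hiu⟩
    by_cases h : j ∈ C.S u
    · exact Or.inl ⟨hij, u, hu, h, hiu⟩
    · exact Or.inr ⟨hjl, u, hu, hlu, h⟩

/-- The members of `S t` come before the others. -/
theorem rel_of_mem {k T : ℕ} (C : SepChain n k T) {t : ℕ} (ht : t ≤ T) {i j : Fin n}
    (hi : i ∈ C.S t) (hj : j ∉ C.S t) : Rel (CInv C.S t) i j := by
  have hne : i ≠ j := fun h => hj (h ▸ hi)
  rcases lt_or_gt_of_ne hne with h | h
  · left
    refine ⟨h, ?_⟩
    rintro ⟨_, u, hu, hju, hiu⟩
    have hut : u ≠ t := fun e => hj (e ▸ hju)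
    have := C.sep u t (lt_of_le_of_ne hu hut) ht j (by simp [hju, hj]) i (by simp [hi, hiu])
    exact lt_asymm h this
  · right
    exact ⟨h, h, t, le_rfl, hi, hj⟩

/-- `S t` is the set of the elements at the first `k` positions. -/
theorem mem_iff_posN {k T : ℕ} (C : SepChain n k T) {t : ℕ} (ht : t ≤ T) (i : Fin n) :
    i ∈ C.S t ↔ posN (CInv C.S t) i < k := by
  classical
  have hI := isInv_cInv C ht
  constructor
  · intro hi
    have hc := C.card_eq t ht
    have h1 : posN (CInv C.S t) i < (C.S t).card := by
      unfold posN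
      apply Finset.card_lt_card
      rw [Finset.ssubset_iff_of_subset]
      · refine ⟨i, hi, ?_⟩
        simpa using rel_irrefl _ i
      · intro j hj
        simp only [Finset.mem_filter, Finset.mem_univ, true_and] at hj
        by_contra h
        exact rel_asymm hI hj (rel_of_mem C ht hi h)
    omega
  · intro h
    by_contra hi
    have h1 : C.S t ⊆ Finset.univ.filter (fun j => Rel (CInv C.S t) j i) := by
      intro j hj
      simp only [Finset.mem_filter, Finset.mem_univ, true_and]
      exact rel_of_mem C ht hj hi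
    have h2 := Finset.card_le_card h1
    rw [C.card_eq t ht] at h2
    unfold posN at h
    have h3 : (Finset.univ.filter (fun j => Rel (CInv C.S t) j i)).card < k := by
      convert h
    omega

/-! ### Words of adjacent swaps -/

/-- The swap of the positions `p` and `p + 1`. -/
def sw (n p : ℕ) : Equiv.Perm (Fin n) :=
  if h : p + 1 < n then Equiv.swap ⟨p, by omega⟩ ⟨p + 1, h⟩ else 1

/-- Result of a word of swaps. -/
def runW (π : Equiv.Perm (Fin n)) : List ℕ → Equiv.Perm (Fin n)
  | [] => π
  | p :: w => runW (π * sw n p) w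

/-- All the swaps of the word are between neighbours `a < b`, with `a` before `b`. -/
def UpW (π : Equiv.Perm (Fin n)) : List ℕ → Prop
  | [] => True
  | p :: w => (∃ h : p + 1 < n, π ⟨p, by omega⟩ < π ⟨p + 1, h⟩) ∧ UpW (π * sw n p) w

theorem runW_append (π : Equiv.Perm (Fin n)) (v w : List ℕ) :
    runW π (v ++ w) = runW (runW π v) w := by
  induction v generalizing π with
  | nil => rfl
  | cons p v ih => exact ih _

theorem upW_append {π : Equiv.Perm (Fin n)} {v w : List ℕ} (h1 : UpW π v)
    (h2 : UpW (runW π v) w) : UpW π (v ++ w) := by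
  induction v generalizing π with
  | nil => exact h2
  | cons p v ih => exact ⟨h1.1, ih h1.2 h2⟩

theorem sw_symm (n p : ℕ) : (sw n p).symm = sw n p := by
  unfold sw
  split_ifs
  · exact Equiv.symm_swap _ _
  · rfl

theorem sw_val {p : ℕ} (h : p + 1 < n) (q : Fin n) :
    ((sw n p q : Fin n) : ℕ) = if (q : ℕ) = p then p + 1 else if (q : ℕ) = p + 1 then p else q := by
  unfold sw
  rw [dif_pos h, Equiv.swap_apply_def]
  split_ifs <;> simp_all [Fin.ext_iff]

/-- Positions after a swap. -/
theorem symm_mul_sw (π : Equiv.Perm (Fin n)) (p : ℕ) (i : Fin n) :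
    (π * sw n p).symm i = sw n p (π.symm i) := by
  have : (π * sw n p).symm = (sw n p).symm * π.symm := by
    rw [← Equiv.Perm.inv_def, mul_inv_rev]
    rfl
  rw [this, sw_symm]
  rfl

/-- A swap at a position different from `k - 1` does not change the set of the first `k`
elements. -/
theorem pos_lt_sw {π : Equiv.Perm (Fin n)} {p k : ℕ} (hp : p + 1 ≠ k) (i : Fin n) :
    ((π * sw n p).symm i : ℕ) < k ↔ (π.symm i : ℕ) < k := by
  rw [symm_mul_sw]
  by_cases h : p + 1 < n
  · rw [sw_val h]
    split_ifs <;> omega
  · have : sw n p = 1 := by unfold sw; rw [dif_neg h]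
    rw [this]
    rfl

theorem pos_lt_runW {π : Equiv.Perm (Fin n)} {k : ℕ} {w : List ℕ} (hw : ∀ p ∈ w, p + 1 ≠ k)
    (i : Fin n) : ((runW π w).symm i : ℕ) < k ↔ (π.symm i : ℕ) < k := by
  induction w generalizing π with
  | nil => rfl
  | cons p w ih =>
    have h1 := ih (π := π * sw n p) (fun q hq => hw q (List.mem_cons_of_mem _ hq))
    rw [pos_lt_sw (hw p List.mem_cons_self)] at h1
    exact h1

/-- The inversions of `π` are inversions of `σ`. -/
def WeakLe (π σ : Equiv.Perm (Fin n)) : Prop :=
  ∀ i j : Fin n, i < j → π.symm j < π.symm i → σ.symm j < σ.symm i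

open Classical in
/-- Number of the inversions of `σ` which are not inversions of `π`. -/
noncomputable def gap (π σ : Equiv.Perm (Fin n)) : ℕ :=
  (Finset.univ.filter (fun q : Fin n × Fin n =>
    q.1 < q.2 ∧ π.symm q.1 < π.symm q.2 ∧ σ.symm q.2 < σ.symm q.1)).card

theorem exists_word (m : ℕ) : ∀ (π σ : Equiv.Perm (Fin n)), WeakLe π σ → gap π σ = m →
    ∃ w : List ℕ, UpW π w ∧ runW π w = σ := by
  classical
  induction m using Nat.strong_induction_on with
  | _ m ih =>
    intro π σ hle hm
    by_cases hex : ∃ p : ℕ, ∃ h : p + 1 < n,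
        σ.symm (π ⟨p + 1, h⟩) < σ.symm (π ⟨p, by omega⟩)
    · obtain ⟨p, hp, hlt⟩ := hex
      set a := π ⟨p, by omega⟩ with ha
      set b := π ⟨p + 1, hp⟩ with hb
      have hpa : (π.symm a : ℕ) = p := by simp [ha]
      have hpb : (π.symm b : ℕ) = p + 1 := by simp [hb]
      have hab : a < b := by
        rcases lt_trichotomy a b with h | h | h
        · exact h
        · rw [h] at hpa; omega
        · have h1 := hle b a h (by rw [Fin.lt_def]; omega)
          exact absurd h1 (lt_asymm hlt)
      set π' := π * sw n p with hπ'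
      have hpos : ∀ i, ((π'.symm i : Fin n) : ℕ) = if (π.symm i : ℕ) = p then p + 1 else
          if (π.symm i : ℕ) = p + 1 then p else (π.symm i : ℕ) := by
        intro i
        rw [hπ', symm_mul_sw, sw_val hp]
      have hval : ∀ i, (π.symm i : ℕ) = p → i = a := by
        intro i hi
        have : π.symm i = π.symm a := Fin.ext (by omega)
        exact π.symm.injective this
      have hval' : ∀ i, (π.symm i : ℕ) = p + 1 → i = b := by
        intro i hi
        have : π.symm i = π.symm b := Fin.ext (by omega)
        exact π.symm.injective this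
      have hle' : WeakLe π' σ := by
        intro i j hij hlt'
        rw [Fin.lt_def, hpos, hpos] at hlt'
        by_cases h1 : π.symm j < π.symm i
        · exact hle i j hij h1
        · -- the pair is the swapped one
          rw [Fin.lt_def] at h1
          have hi : (π.symm i : ℕ) = p ∧ (π.symm j : ℕ) = p + 1 := by
            split_ifs at hlt' <;> omega
          rw [hval i hi.1, hval' j hi.2]
          exact hlt
      have hgap : gap π' σ < gap π σ := by
        unfold gap
        apply Finset.card_lt_card
        rw [Finset.ssubset_iff_of_subset]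
        · refine ⟨(a, b), ?_, ?_⟩
          · simp only [Finset.mem_filter, Finset.mem_univ, true_and]
            refine ⟨hab, ?_, hlt⟩
            rw [Fin.lt_def]; omega
          · simp only [Finset.mem_filter, Finset.mem_univ, true_and, not_and]
            intro _ h2
            rw [Fin.lt_def, hpos, hpos, hpa, hpb] at h2
            simp at h2
        · rintro ⟨i, j⟩ hq
          simp only [Finset.mem_filter, Finset.mem_univ, true_and] at hq ⊢
          refine ⟨hq.1, ?_, hq.2.2⟩
          by_contra h1
          have h2 : π.symm j ≤ π.symm i := not_lt.1 h1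
          have h3 : π.symm j ≠ π.symm i := fun e => by
            have := π.symm.injective e
            exact absurd hq.1 (by rw [this]; exact lt_irrefl _)
          have h4 := lt_of_le_of_ne h2 h3
          have h5 := hq.2.1
          rw [Fin.lt_def, hpos, hpos] at h5
          rw [Fin.lt_def] at h4
          have h6 : (π.symm j : ℕ) = p ∧ (π.symm i : ℕ) = p + 1 := by
            split_ifs at h5 <;> omega
          have h7 := hval j h6.1
          have h8 := hval' i h6.2
          rw [h7, h8] at hq
          exact lt_asymm hab hq.1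
      obtain ⟨w, hw1, hw2⟩ := ih (gap π' σ) (by omega) π' σ hle' rfl
      exact ⟨p :: w, ⟨⟨hp, hab⟩, hw1⟩, hw2⟩
    · -- `σ` is equal to `π`
      refine ⟨[], trivial, ?_⟩
      have hmono : ∀ p : ℕ, ∀ h : p + 1 < n,
          σ.symm (π ⟨p, by omega⟩) < σ.symm (π ⟨p + 1, h⟩) := by
        intro p h
        by_contra h1
        apply hex
        refine ⟨p, h, lt_of_le_of_ne (not_lt.1 h1) ?_⟩
        intro e
        have := π.injective (σ.symm.injective e)
        simp at this
      have hsm : StrictMono (fun q : Fin n => σ.symm (π q)) := by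
        intro q q' hqq
        obtain ⟨d, hd⟩ : ∃ d, (q' : ℕ) = q + 1 + d := ⟨q' - (q + 1), by
          have := Fin.lt_def.1 hqq; omega⟩
        have : ∀ d : ℕ, ∀ h : (q : ℕ) + 1 + d < n,
            σ.symm (π q) < σ.symm (π ⟨q + 1 + d, h⟩) := by
          intro d
          induction d with
          | zero => intro h; exact hmono q h
          | succ d ihd =>
            intro h
            exact (ihd (by omega)).trans (hmono (q + 1 + d) (by omega))
        have h2 := this d (by have := q'.2; omega)
        have h3 : (⟨(q : ℕ) + 1 + d, by have := q'.2; omega⟩ : Fin n) = q' := Fin.ext hd.symm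
        rw [h3] at h2
        exact h2
      have hid : ∀ q : Fin n, σ.symm (π q) = q := by
        intro q
        have h1 : ∀ m : ℕ, ∀ h : m < n, m ≤ (σ.symm (π ⟨m, h⟩) : ℕ) := by
          intro m
          induction m with
          | zero => intro _; omega
          | succ m ihm =>
            intro h
            have h2 := ihm (by omega)
            have h3 := hmono m h
            rw [Fin.lt_def] at h3
            omega
        have h4 : ∀ m : ℕ, ∀ x : Fin n, (x : ℕ) + m = n - 1 →
            (σ.symm (π x) : ℕ) + m ≤ n - 1 := by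
          intro m
          induction m with
          | zero =>
            intro x _
            have := (σ.symm (π x)).2
            omega
          | succ m ihm =>
            intro x hx
            have hx1 : (x : ℕ) + 1 < n := by omega
            have h2 := ihm ⟨x + 1, hx1⟩ (by simp only; omega)
            have h3 := hmono x hx1
            rw [Fin.lt_def] at h3
            have h5 : (⟨(x : ℕ), by omega⟩ : Fin n) = x := rfl
            rw [h5] at h3
            omega
        apply Fin.ext
        have h5 := h1 q q.2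
        have h6 := h4 (n - 1 - q) q (by have := q.2; omega)
        have := q.2
        have h7 : (⟨(q : ℕ), q.2⟩ : Fin n) = q := rfl
        rw [h7] at h5
        omega
      apply Equiv.ext
      intro q
      have := hid q
      simp only [runW]
      calc π q = σ (σ.symm (π q)) := by simp
        _ = σ q := by rw [this]

theorem weakLe_of {I J : Fin n → Fin n → Prop} (hI : IsInv I) (hJ : IsInv J)
    (hIJ : ∀ i j, I i j → J i j) {π σ : Equiv.Perm (Fin n)}
    (hπ : ∀ i, (π.symm i : ℕ) = posN I i) (hσ : ∀ i, (σ.symm i : ℕ) = posN J i) :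
    WeakLe π σ := by
  intro i j hij h
  rw [Fin.lt_def, hπ, hπ, posN_lt_iff hI] at h
  rw [Fin.lt_def, hσ, hσ, posN_lt_iff hJ]
  rcases h with ⟨h1, _⟩ | ⟨_, h1⟩
  · exact absurd h1 (lt_asymm hij)
  · exact Or.inr ⟨hij, hIJ _ _ h1⟩

/-- A chain of pairwise strongly separated `k`-sets gives a word of swaps from the identity to the
reversal, with at least `T` swaps between the positions `k - 1` and `k` (counted from `0`). -/
theorem chain_word {k T : ℕ} (C : SepChain n k T) :
    ∃ w : List ℕ, UpW (1 : Equiv.Perm (Fin n)) w ∧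
      runW (1 : Equiv.Perm (Fin n)) w = Fin.revPerm ∧
      T ≤ w.countP (fun p => decide (p + 1 = k)) := by
  classical
  have hex : ∀ t : ℕ, t ≤ T → ∃ π : Equiv.Perm (Fin n), ∀ i, (π.symm i : ℕ) =
      posN (CInv C.S t) i := fun t ht => exists_perm (isInv_cInv C ht)
  choose! π hπ using hex
  have key : ∀ t, t ≤ T → ∃ w : List ℕ, UpW (1 : Equiv.Perm (Fin n)) w ∧ runW 1 w = π t ∧
      t ≤ w.countP (fun p => decide (p + 1 = k)) := by
    intro t
    induction t with
    | zero =>
      intro ht
      obtain ⟨w, h1, h2⟩ := exists_word _ (1 : Equiv.Perm (Fin n)) (π 0)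
        (fun i j hij h => absurd h (lt_asymm hij)) rfl
      exact ⟨w, h1, h2, Nat.zero_le _⟩
    | succ t ih =>
      intro ht
      obtain ⟨w, h1, h2, h3⟩ := ih (by omega)
      obtain ⟨v, h4, h5⟩ := exists_word _ (π t) (π (t + 1))
        (weakLe_of (isInv_cInv C (by omega)) (isInv_cInv C ht)
          (fun i j h => cInv_mono _ (Nat.le_succ t) h) (hπ t (by omega)) (hπ (t + 1) ht)) rfl
      refine ⟨w ++ v, upW_append h1 (h2 ▸ h4), by rw [runW_append, h2, h5], ?_⟩
      rw [List.countP_append]
      have h6 : 0 < v.countP (fun p => decide (p + 1 = k)) := by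
        rw [List.countP_pos_iff]
        by_contra h7
        have h8 : ∀ p ∈ v, p + 1 ≠ k := fun p hp h => h7 ⟨p, hp, by simpa using h⟩
        apply C.ne t (by omega)
        ext i
        rw [mem_iff_posN C (by omega : t ≤ T), mem_iff_posN C ht, ← hπ t (by omega),
          ← hπ (t + 1) ht, ← h5]
        exact (pos_lt_runW h8 i).symm
      omega
  obtain ⟨w, h1, h2, h3⟩ := key T le_rfl
  obtain ⟨v, h4, h5⟩ := exists_word _ (π T) Fin.revPerm
    (fun i j hij _ => by
      rw [Fin.revPerm_symm]
      simpa using hij) rfl
  refine ⟨w ++ v, upW_append h1 (h2 ▸ h4), by rw [runW_append, h2, h5], ?_⟩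
  rw [List.countP_append]
  omega

end P065HP
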