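import Mathlib
import Vale.Agent.P065.HP.Ext

/-!
P065: padding of a chain of strongly separated sets, and copies of a chain in disjoint blocks.
-/

namespace P065HP

/-- The same as `SepChain`, with sets of natural numbers smaller than `n`. -/
structure NatChain (n k T : ℕ) where
  S : ℕ → Finset ℕ
  bd : ∀ t, t ≤ T → ∀ x ∈ S t, x < n
  card_eq : ∀ t, t ≤ T → (S t).card = k
  ne : ∀ t, t < T → S t ≠ S (t + 1)
  sep : ∀ s t, s < t → t ≤ T → ∀ x, x ∈ S s → x ∉ S t → ∀ y, y ∈ S t → y ∉ S s → x < y

/-- From sets of elements of `Fin n` to sets of natural numbers. -/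
def NatChain.ofSep {n k T : ℕ} (C : SepChain n k T) : NatChain n k T where
  S := fun t => (C.S t).map Fin.valEmbedding
  bd := by
    intro t _ x hx
    simp only [Finset.mem_map, Fin.valEmbedding_apply] at hx
    obtain ⟨y, _, rfl⟩ := hx
    exact y.2
  card_eq := by
    intro t ht
    rw [Finset.card_map, C.card_eq t ht]
  ne := by
    intro t ht h
    exact C.ne t ht (Finset.map_injective _ h)
  sep := by
    intro s t hst ht x hx hx' y hy hy'
    simp only [Finset.mem_map, Fin.valEmbedding_apply] at hx hy
    obtain ⟨x, hx, rfl⟩ := hx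
    obtain ⟨y, hy, rfl⟩ := hy
    have h1 : x ∉ C.S t := fun h => hx' (by
      simp only [Finset.mem_map, Fin.valEmbedding_apply]; exact ⟨x, h, rfl⟩)
    have h2 : y ∉ C.S s := fun h => hy' (by
      simp only [Finset.mem_map, Fin.valEmbedding_apply]; exact ⟨y, h, rfl⟩)
    exact C.sep s t hst ht x (by simp [hx, h1]) y (by simp [hy, h2])

/-- The elements of `Fin n` whose values are in `s`. -/
def finS (n : ℕ) (s : Finset ℕ) : Finset (Fin n) := Finset.univ.filter (fun x => (x : ℕ) ∈ s)

theorem mem_finS {n : ℕ} {s : Finset ℕ} {x : Fin n} : x ∈ finS n s ↔ (x : ℕ) ∈ s := by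
  simp [finS]

theorem card_finS {n : ℕ} {s : Finset ℕ} (h : ∀ x ∈ s, x < n) : (finS n s).card = s.card := by
  rw [← Finset.card_map Fin.valEmbedding]
  congr 1
  ext x
  simp only [Finset.mem_map, mem_finS, Fin.valEmbedding_apply]
  constructor
  · rintro ⟨y, hy, rfl⟩
    exact hy
  · intro hx
    exact ⟨⟨x, h x hx⟩, hx, rfl⟩

/-- From sets of natural numbers to sets of elements of `Fin n`. -/
def NatChain.toSep {n k T : ℕ} (C : NatChain n k T) : SepChain n k T where
  S := fun t => finS n (C.S t)
  card_eq := by
    intro t ht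
    rw [card_finS (C.bd t ht), C.card_eq t ht]
  ne := by
    intro t ht h
    apply C.ne t ht
    ext x
    constructor
    · intro hx
      have h1 : (⟨x, C.bd t ht.le x hx⟩ : Fin n) ∈ finS n (C.S t) := by
        rw [mem_finS]; exact hx
      rw [h, mem_finS] at h1
      exact h1
    · intro hx
      have h1 : (⟨x, C.bd (t + 1) ht x hx⟩ : Fin n) ∈ finS n (C.S (t + 1)) := by
        rw [mem_finS]; exact hx
      rw [← h, mem_finS] at h1
      exact h1
  sep := by
    intro s t hst ht x hx y hy
    simp only [Finset.mem_sdiff, mem_finS] at hx hy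
    exact C.sep s t hst ht x hx.1 hx.2 y hy.1 hy.2

/-- Padding with elements which are always in the set, or never. -/
def NatChain.pad {N K T : ℕ} (C : NatChain N K T) (k : ℕ) (hK : K ≤ k) (hN : N ≤ k) :
    NatChain (2 * k) k T where
  S := fun t => C.S t ∪ Finset.Ico N (N + (k - K))
  bd := by
    intro t ht x hx
    rw [Finset.mem_union, Finset.mem_Ico] at hx
    rcases hx with hx | hx
    · have := C.bd t ht x hx
      omega
    · omega
  card_eq := by
    intro t ht
    rw [Finset.card_union_of_disjoint, C.card_eq t ht, Nat.card_Ico]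
    · omega
    · rw [Finset.disjoint_left]
      intro x hx hx'
      have := C.bd t ht x hx
      rw [Finset.mem_Ico] at hx'
      omega
  ne := by
    intro t ht h
    apply C.ne t ht
    ext x
    have h1 := Finset.ext_iff.1 h x
    rw [Finset.mem_union, Finset.mem_union, Finset.mem_Ico] at h1
    constructor
    · intro hx
      have h2 := C.bd t ht.le x hx
      rcases h1.1 (Or.inl hx) with h3 | h3
      · exact h3
      · omega
    · intro hx
      have h2 := C.bd (t + 1) ht x hx
      rcases h1.2 (Or.inl hx) with h3 | h3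
      · exact h3
      · omega
  sep := by
    intro s t hst ht x hx hx' y hy hy'
    rw [Finset.mem_union] at hx hx' hy hy'
    push Not at hx' hy'
    exact C.sep s t hst ht x (hx.resolve_right hx'.2) hx'.1 y (hy.resolve_right hy'.2) hy'.1

/-- Copies in disjoint blocks. -/
def NatChain.blocks {b k T : ℕ} (C : NatChain b k T) (hk : 1 ≤ k) (m n : ℕ) (hm : 1 ≤ m)
    (hn : m * b ≤ n) : NatChain n k (m * (T + 1) - 1) where
  S := fun t => (C.S (t % (T + 1))).map (addLeftEmbedding (b * (t / (T + 1))))
  bd := by
    intro t ht x hx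
    simp only [Finset.mem_map, addLeftEmbedding_apply] at hx
    obtain ⟨y, hy, rfl⟩ := hx
    have h1 : t % (T + 1) ≤ T := by
      have := Nat.mod_lt t (Nat.succ_pos T)
      rw [Nat.succ_eq_add_one] at this
      omega
    have h2 := C.bd _ h1 y hy
    have h3 : t / (T + 1) < m := by
      rw [Nat.div_lt_iff_lt_mul (Nat.succ_pos T)]
      have : 0 < m * (T + 1) := Nat.mul_pos hm (Nat.succ_pos T)
      simp only [Nat.succ_eq_add_one]
      omega
    calc b * (t / (T + 1)) + y < b * (t / (T + 1)) + b := by omega
      _ = b * (t / (T + 1) + 1) := by ring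
      _ ≤ b * m := Nat.mul_le_mul_left _ h3
      _ = m * b := Nat.mul_comm _ _
      _ ≤ n := hn
  card_eq := by
    intro t _
    have h1 : t % (T + 1) ≤ T := by
      have := Nat.mod_lt t (Nat.succ_pos T)
      rw [Nat.succ_eq_add_one] at this
      omega
    rw [Finset.card_map, C.card_eq _ h1]
  ne := by
    intro t ht h
    have hT : 0 < T + 1 := Nat.succ_pos T
    have hr : t % (T + 1) < T + 1 := Nat.mod_lt t hT
    have hdm := Nat.div_add_mod t (T + 1)
    by_cases h1 : t % (T + 1) = T
    · -- the next block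
      have e1 : (t + 1) / (T + 1) = t / (T + 1) + 1 := by
        have : t + 1 = (T + 1) * (t / (T + 1) + 1) := by rw [mul_add]; omega
        rw [this, Nat.mul_div_cancel_left _ hT]
      obtain ⟨x, hx⟩ : (C.S (t % (T + 1))).Nonempty := by
        rw [← Finset.card_pos, C.card_eq _ (by omega)]
        omega
      have h2 : b * (t / (T + 1)) + x ∈
          (C.S ((t + 1) % (T + 1))).map (addLeftEmbedding (b * ((t + 1) / (T + 1)))) := by
        rw [← h]
        simp only [Finset.mem_map, addLeftEmbedding_apply]
        exact ⟨x, hx, rfl⟩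
      simp only [Finset.mem_map, addLeftEmbedding_apply] at h2
      obtain ⟨y, _, hy⟩ := h2
      have h3 := C.bd _ (by omega : t % (T + 1) ≤ T) x hx
      rw [e1, mul_add] at hy
      omega
    · have e1 : (t + 1) / (T + 1) = t / (T + 1) := by
        have : t + 1 = (t % (T + 1) + 1) + (T + 1) * (t / (T + 1)) := by omega
        rw [this, Nat.add_mul_div_left _ _ hT, Nat.div_eq_of_lt (by omega)]
        have h5 : (t % (T + 1) + 1 + (T + 1) * (t / (T + 1))) = t + 1 := by omega
        omega
      have e2 : (t + 1) % (T + 1) = t % (T + 1) + 1 := by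
        have h4 := Nat.div_add_mod (t + 1) (T + 1)
        rw [e1] at h4
        omega
      rw [e1, e2] at h
      exact C.ne _ (by omega) (Finset.map_injective _ h)
  sep := by
    intro s t hst ht x hx hx' y hy hy'
    have hT : 0 < T + 1 := Nat.succ_pos T
    have hrs : s % (T + 1) < T + 1 := Nat.mod_lt s hT
    have hrt : t % (T + 1) < T + 1 := Nat.mod_lt t hT
    have hds := Nat.div_add_mod s (T + 1)
    have hdt := Nat.div_add_mod t (T + 1)
    have hle : s / (T + 1) ≤ t / (T + 1) := Nat.div_le_div_right hst.le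
    simp only [Finset.mem_map, addLeftEmbedding_apply] at hx hx' hy hy'
    obtain ⟨x, hx, rfl⟩ := hx
    obtain ⟨y, hy, rfl⟩ := hy
    rcases Nat.lt_or_ge (s / (T + 1)) (t / (T + 1)) with h | h
    · have h1 := C.bd _ (by omega : s % (T + 1) ≤ T) x hx
      calc b * (s / (T + 1)) + x < b * (s / (T + 1)) + b := by omega
        _ = b * (s / (T + 1) + 1) := by ring
        _ ≤ b * (t / (T + 1)) := Nat.mul_le_mul_left _ h
        _ ≤ b * (t / (T + 1)) + y := Nat.le_add_right _ _
    · have he : s / (T + 1) = t / (T + 1) := le_antisymm hle h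
      rw [he] at hx' hy' hds ⊢
      have h1 : x ∉ C.S (t % (T + 1)) := fun h => hx' ⟨x, h, rfl⟩
      have h2 : y ∉ C.S (s % (T + 1)) := fun h => hy' ⟨y, h, rfl⟩
      have := C.sep (s % (T + 1)) (t % (T + 1)) (by omega) (by omega) x hx h1 y hy h2
      omega

end P065HP
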