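import Mathlib
import Vale.Agent.P065.HP.Ext

/-!
P065: the wiring diagram of a word of swaps.
-/

namespace P065HP

/-! ### Piecewise linear interpolation -/

/-- `0` for `y ≤ 0`, `y` for `0 ≤ y ≤ 1`, `1` for `1 ≤ y`. -/
noncomputable def clamp (y : ℝ) : ℝ := max 0 (min y 1)

theorem clamp_of_nonpos {y : ℝ} (h : y ≤ 0) : clamp y = 0 := by
  unfold clamp
  rw [max_eq_left]
  exact (min_le_left _ _).trans h

theorem clamp_of_one_le {y : ℝ} (h : 1 ≤ y) : clamp y = 1 := by
  unfold clamp
  rw [min_eq_right h]
  exact max_eq_right zero_le_one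

theorem clamp_of_mem {y : ℝ} (h0 : 0 ≤ y) (h1 : y ≤ 1) : clamp y = y := by
  unfold clamp
  rw [min_eq_left h1, max_eq_right h0]

/-- The piecewise linear function with the values `g 0, …, g M` at `0, …, M`, constant on the left
of `0` and on the right of `M`. -/
noncomputable def interp (M : ℕ) (g : ℕ → ℝ) (x : ℝ) : ℝ :=
  g 0 + ∑ t ∈ Finset.range M, (g (t + 1) - g t) * clamp (x - t)

theorem continuous_interp (M : ℕ) (g : ℕ → ℝ) : Continuous (interp M g) := by
  unfold interp clamp
  fun_prop

theorem interp_of_nonpos {M : ℕ} {g : ℕ → ℝ} {x : ℝ} (h : x ≤ 0) : interp M g x = g 0 := by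
  unfold interp
  rw [Finset.sum_eq_zero]
  · ring
  · intro t _
    rw [clamp_of_nonpos]
    · ring
    · have : (0 : ℝ) ≤ t := Nat.cast_nonneg t
      linarith

theorem interp_of_ge {M : ℕ} {g : ℕ → ℝ} {x : ℝ} (h : (M : ℝ) ≤ x) : interp M g x = g M := by
  unfold interp
  have : ∑ t ∈ Finset.range M, (g (t + 1) - g t) * clamp (x - t) =
      ∑ t ∈ Finset.range M, (g (t + 1) - g t) := by
    apply Finset.sum_congr rfl
    intro t ht
    rw [Finset.mem_range] at ht
    have h1 : ((t : ℝ) + 1) ≤ M := by exact_mod_cast ht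
    rw [clamp_of_one_le (by linarith), mul_one]
  rw [this, Finset.sum_range_sub]
  ring

theorem interp_of_mem {M : ℕ} {g : ℕ → ℝ} {m : ℕ} {x : ℝ} (hm : m < M) (h0 : (m : ℝ) ≤ x)
    (h1 : x ≤ m + 1) : interp M g x = g m + (g (m + 1) - g m) * (x - m) := by
  unfold interp
  obtain ⟨r, rfl⟩ : ∃ r, M = m + 1 + r := ⟨M - (m + 1), by omega⟩
  rw [Finset.sum_range_add, Finset.sum_range_succ]
  have e1 : ∑ t ∈ Finset.range m, (g (t + 1) - g t) * clamp (x - t) =
      ∑ t ∈ Finset.range m, (g (t + 1) - g t) := by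
    apply Finset.sum_congr rfl
    intro t ht
    rw [Finset.mem_range] at ht
    have h1 : ((t : ℝ) + 1) ≤ m := by exact_mod_cast ht
    rw [clamp_of_one_le (by linarith), mul_one]
  have e2 : ∑ t ∈ Finset.range r, (g (m + 1 + t + 1) - g (m + 1 + t)) *
      clamp (x - ((m + 1 + t : ℕ) : ℝ)) = 0 := by
    apply Finset.sum_eq_zero
    intro t _
    rw [clamp_of_nonpos, mul_zero]
    push_cast
    have : (0 : ℝ) ≤ t := Nat.cast_nonneg t
    linarith
  rw [e1, e2, Finset.sum_range_sub, clamp_of_mem (by linarith) (by linarith)]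
  ring

/-! ### Positions -/

variable {n : ℕ}

/-- Position of `i` after `t` swaps. -/
def posW (w : List ℕ) (t : ℕ) (i : Fin n) : ℕ :=
  ((runW (1 : Equiv.Perm (Fin n)) (w.take t)).symm i : ℕ)

/-- Position of the `t`-th swap. -/
def swp (w : List ℕ) (t : ℕ) : ℕ := w.getD t 0

theorem take_succ_eq (w : List ℕ) {t : ℕ} (ht : t < w.length) :
    w.take (t + 1) = w.take t ++ [swp w t] := by
  rw [List.take_succ_eq_append_getElem ht, swp, List.getD_eq_getElem _ _ ht]

theorem runW_take_succ (w : List ℕ) {t : ℕ} (ht : t < w.length) :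
    runW (1 : Equiv.Perm (Fin n)) (w.take (t + 1)) =
      runW 1 (w.take t) * sw n (swp w t) := by
  rw [take_succ_eq w ht, runW_append]
  rfl

theorem upW_get {π : Equiv.Perm (Fin n)} {w : List ℕ} (hw : UpW π w) {t : ℕ}
    (ht : t < w.length) : ∃ h : swp w t + 1 < n,
      runW π (w.take t) ⟨swp w t, by omega⟩ < runW π (w.take t) ⟨swp w t + 1, h⟩ := by
  induction w generalizing π t with
  | nil => simp at ht
  | cons p w ih =>
    cases t with
    | zero => exact hw.1
    | succ t =>
      have := ih hw.2 (t := t) (by simpa using ht)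
      exact this

theorem posW_lt (w : List ℕ) (t : ℕ) (i : Fin n) : posW w t i < n := Fin.is_lt _

theorem posW_inj {w : List ℕ} {t : ℕ} {i j : Fin n} (h : posW w t i = posW w t j) : i = j :=
  (runW (1 : Equiv.Perm (Fin n)) (w.take t)).symm.injective (Fin.ext h)

theorem posW_zero (w : List ℕ) (i : Fin n) : posW w 0 i = i := rfl

theorem posW_succ {w : List ℕ} (hw : UpW (1 : Equiv.Perm (Fin n)) w) {t : ℕ} (ht : t < w.length)
    (i : Fin n) : posW w (t + 1) i = if posW w t i = swp w t then swp w t + 1 else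
      if posW w t i = swp w t + 1 then swp w t else posW w t i := by
  obtain ⟨h, _⟩ := upW_get hw ht
  unfold posW
  rw [runW_take_succ w ht, symm_mul_sw, sw_val h]

theorem posW_length {w : List ℕ} (hr : runW (1 : Equiv.Perm (Fin n)) w = Fin.revPerm)
    (i : Fin n) : posW w w.length i = n - 1 - i := by
  unfold posW
  rw [List.take_length, hr, Fin.revPerm_symm, Fin.revPerm_apply, Fin.val_rev]
  omega

/-- The swapped elements: the smaller one comes first. -/
theorem up_pair {w : List ℕ} (hw : UpW (1 : Equiv.Perm (Fin n)) w) {t : ℕ} (ht : t < w.length)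
    {i j : Fin n} (hi : posW w t i = swp w t) (hj : posW w t j = swp w t + 1) : i < j := by
  obtain ⟨h, hlt⟩ := upW_get hw ht
  have e1 : runW 1 (w.take t) ⟨swp w t, by omega⟩ = i := by
    rw [← Equiv.eq_symm_apply]
    exact Fin.ext hi.symm
  have e2 : runW 1 (w.take t) ⟨swp w t + 1, h⟩ = j := by
    rw [← Equiv.eq_symm_apply]
    exact Fin.ext hj.symm
  rw [e1, e2] at hlt
  exact hlt

theorem exists_pair {w : List ℕ} (hw : UpW (1 : Equiv.Perm (Fin n)) w) {t : ℕ}
    (ht : t < w.length) : ∃ i j : Fin n, i < j ∧ posW w t i = swp w t ∧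
      posW w t j = swp w t + 1 := by
  obtain ⟨h, hlt⟩ := upW_get hw ht
  refine ⟨_, _, hlt, ?_, ?_⟩ <;> simp [posW]

/-- Once a pair is inverted, it remains inverted. -/
theorem inv_persist {w : List ℕ} (hw : UpW (1 : Equiv.Perm (Fin n)) w) {i j : Fin n}
    (hij : i < j) {t : ℕ} (ht : t < w.length) (h : posW w t j < posW w t i) :
    posW w (t + 1) j < posW w (t + 1) i := by
  rw [posW_succ hw ht, posW_succ hw ht]
  have h1 : ¬ (posW w t j = swp w t ∧ posW w t i = swp w t + 1) := by
    rintro ⟨h2, h3⟩
    exact lt_asymm hij (up_pair hw ht h2 h3)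
  split_ifs <;> omega

theorem inv_persist' {w : List ℕ} (hw : UpW (1 : Equiv.Perm (Fin n)) w) {i j : Fin n}
    (hij : i < j) {t : ℕ} (h : posW w t j < posW w t i) {t' : ℕ} (htt : t ≤ t')
    (ht : t' ≤ w.length) : posW w t' j < posW w t' i := by
  induction t', htt using Nat.le_induction with
  | base => exact h
  | succ m hm ih => exact inv_persist hw hij (by omega) (ih (by omega))

/-- The time of the swap of a pair. -/
theorem exists_time {w : List ℕ} (hw : UpW (1 : Equiv.Perm (Fin n)) w)
    (hr : runW (1 : Equiv.Perm (Fin n)) w = Fin.revPerm) {i j : Fin n} (hij : i < j) :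
    ∃ t, t < w.length ∧ posW w t i = swp w t ∧ posW w t j = swp w t + 1 ∧
      (∀ s, s ≤ t → posW w s i < posW w s j) ∧
      ∀ s, t < s → s ≤ w.length → posW w s j < posW w s i := by
  classical
  have hij' : (i : ℕ) < j := hij
  have hex : ∃ t, t ≤ w.length ∧ posW w t j < posW w t i := by
    refine ⟨w.length, le_rfl, ?_⟩
    rw [posW_length hr, posW_length hr]
    have := j.2
    omega
  obtain ⟨hT1, hT2⟩ := Nat.find_spec hex
  have hmin : ∀ s, s < Nat.find hex → posW w s i < posW w s j := by
    intro s hs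
    have h1 := Nat.find_min hex hs
    have h2 : ¬ posW w s j < posW w s i := fun h => h1 ⟨by omega, h⟩
    have h3 : posW w s i ≠ posW w s j := fun h => absurd (posW_inj h) hij.ne
    omega
  have h0 : Nat.find hex ≠ 0 := by
    intro h
    rw [h, posW_zero, posW_zero] at hT2
    omega
  obtain ⟨t, ht⟩ := Nat.exists_eq_succ_of_ne_zero h0
  rw [Nat.succ_eq_add_one] at ht
  rw [ht] at hT1 hT2 hmin
  have h1 := hmin t (by omega)
  have htl : t < w.length := by omega
  have h2 : posW w t i = swp w t ∧ posW w t j = swp w t + 1 := by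
    rw [posW_succ hw htl, posW_succ hw htl] at hT2
    split_ifs at hT2 <;> omega
  refine ⟨t, htl, h2.1, h2.2, fun s hs => hmin s (by omega), fun s hs hs' => ?_⟩
  exact inv_persist' hw hij hT2 hs hs'

/-! ### The wiring diagram -/

/-- A simple arrangement of pseudolines: graphs of continuous functions on the real line, any two
of which meet in exactly one point and cross there; no point lies on three of them. -/
structure IsPseudolineArrangement (f : Fin n → ℝ → ℝ) : Prop where
  continuous : ∀ i, Continuous (f i)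
  cross : ∀ i j, i ≠ j → ∃ x₀, f i x₀ = f j x₀ ∧
    (((∀ x, x < x₀ → f i x < f j x) ∧ ∀ x, x₀ < x → f j x < f i x) ∨
      ((∀ x, x < x₀ → f j x < f i x) ∧ ∀ x, x₀ < x → f i x < f j x))
  simple : ∀ i j l x, i ≠ j → i ≠ l → j ≠ l → f i x = f j x → f i x ≠ f l x

/-- Number of the crossing points of the arrangement below which exactly `k - 1` of the graphs
pass. -/
noncomputable def levelVertices (f : Fin n → ℝ → ℝ) (k : ℕ) : ℕ :=
  Set.ncard {q : Fin n × Fin n | q.1 < q.2 ∧
    ∃ x, f q.1 x = f q.2 x ∧ Set.ncard {l : Fin n | f l x < f q.1 x} + 1 = k}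

/-- The graph of `i`. -/
noncomputable def wire (w : List ℕ) (i : Fin n) (x : ℝ) : ℝ :=
  interp w.length (fun t => (posW w t i : ℝ)) x

theorem cases_x (M : ℕ) (x : ℝ) : x ≤ 0 ∨ (M : ℝ) ≤ x ∨
    ∃ m : ℕ, m < M ∧ (m : ℝ) ≤ x ∧ x < m + 1 := by
  rcases le_or_gt x 0 with h | h
  · exact Or.inl h
  rcases le_or_gt (M : ℝ) x with h1 | h1
  · exact Or.inr (Or.inl h1)
  · right; right
    refine ⟨⌊x⌋₊, ?_, Nat.floor_le h.le, Nat.lt_floor_add_one x⟩
    rw [Nat.floor_lt h.le]
    exact h1

/-- The crossing of a pair. -/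
theorem wire_cross {w : List ℕ} (hw : UpW (1 : Equiv.Perm (Fin n)) w) {i j : Fin n}
    {t : ℕ} (ht : t < w.length) (hi : posW w t i = swp w t) (hj : posW w t j = swp w t + 1)
    (hb : ∀ s, s ≤ t → posW w s i < posW w s j)
    (ha : ∀ s, t < s → s ≤ w.length → posW w s j < posW w s i) :
    wire w i (t + 1 / 2) = wire w j (t + 1 / 2) ∧
      (∀ x : ℝ, x < t + 1 / 2 → wire w i x < wire w j x) ∧
      ∀ x : ℝ, t + 1 / 2 < x → wire w j x < wire w i x := by
  have hi' : posW w (t + 1) i = swp w t + 1 := by
    rw [posW_succ hw ht, if_pos hi]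
  have hj' : posW w (t + 1) j = swp w t := by
    rw [posW_succ hw ht, if_neg (by omega), if_pos hj]
  have hti : ∀ x : ℝ, (t : ℝ) ≤ x → x ≤ t + 1 → wire w i x = swp w t + (x - t) := by
    intro x h0 h1
    unfold wire
    rw [interp_of_mem ht h0 h1, hi, hi']
    push_cast
    ring
  have htj : ∀ x : ℝ, (t : ℝ) ≤ x → x ≤ t + 1 → wire w j x = swp w t + 1 - (x - t) := by
    intro x h0 h1
    unfold wire
    rw [interp_of_mem ht h0 h1, hj, hj']
    push_cast
    ring
  have hcast : ∀ s, s ≤ t → ((posW w s i : ℕ) : ℝ) < posW w s j := fun s hs => by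
    exact_mod_cast hb s hs
  have hcast' : ∀ s, t < s → s ≤ w.length → ((posW w s j : ℕ) : ℝ) < posW w s i :=
    fun s hs hs' => by exact_mod_cast ha s hs hs'
  have ht0 : (0 : ℝ) ≤ t := Nat.cast_nonneg t
  have htM : (t : ℝ) + 1 ≤ w.length := by exact_mod_cast ht
  refine ⟨?_, ?_, ?_⟩
  · rw [hti _ (by linarith) (by linarith), htj _ (by linarith) (by linarith)]
    ring
  · intro x hx
    rcases cases_x w.length x with h | h | ⟨m, hm, h0, h1⟩
    · unfold wire
      rw [interp_of_nonpos h, interp_of_nonpos h]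
      exact hcast 0 (Nat.zero_le _)
    · exfalso
      linarith
    · have hmt : m ≤ t := by
        by_contra hc
        have : (t : ℝ) + 1 ≤ m := by exact_mod_cast (not_le.1 hc)
        linarith
      rcases hmt.eq_or_lt with rfl | hlt
      · rw [hti _ h0 h1.le, htj _ h0 h1.le]
        linarith
      · unfold wire
        rw [interp_of_mem hm h0 h1.le, interp_of_mem hm h0 h1.le]
        have e1 := hcast m hmt
        have e2 := hcast (m + 1) hlt
        have e3 : 0 ≤ x - m := by linarith
        have e4 : 0 < 1 - (x - m) := by linarith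
        nlinarith [mul_nonneg e3 (sub_nonneg.2 e2.le), mul_pos e4 (sub_pos.2 e1)]
  · intro x hx
    rcases cases_x w.length x with h | h | ⟨m, hm, h0, h1⟩
    · exfalso
      linarith
    · unfold wire
      rw [interp_of_ge h, interp_of_ge h]
      exact hcast' _ ht le_rfl
    · have hmt : t ≤ m := by
        by_contra hc
        have : (m : ℝ) + 1 ≤ t := by exact_mod_cast (not_le.1 hc)
        linarith
      rcases hmt.eq_or_lt with rfl | hlt
      · rw [hti _ h0 h1.le, htj _ h0 h1.le]
        linarith
      · unfold wire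
        rw [interp_of_mem hm h0 h1.le, interp_of_mem hm h0 h1.le]
        have e1 := hcast' m hlt hm.le
        have e2 := hcast' (m + 1) (by omega) hm
        have e3 : 0 ≤ x - m := by linarith
        have e4 : 0 < 1 - (x - m) := by linarith
        nlinarith [mul_nonneg e3 (sub_nonneg.2 e2.le), mul_pos e4 (sub_pos.2 e1)]

/-- The other wires at the time of a crossing. -/
theorem wire_other {w : List ℕ} (hw : UpW (1 : Equiv.Perm (Fin n)) w) {t : ℕ}
    (ht : t < w.length) {l : Fin n} (h1 : posW w t l ≠ swp w t)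
    (h2 : posW w t l ≠ swp w t + 1) : wire w l (t + 1 / 2) = posW w t l := by
  have h3 : posW w (t + 1) l = posW w t l := by
    rw [posW_succ hw ht, if_neg h1, if_neg h2]
  unfold wire
  rw [interp_of_mem ht (by linarith) (by linarith), h3]
  ring

theorem wire_at {w : List ℕ} (hw : UpW (1 : Equiv.Perm (Fin n)) w) {t : ℕ}
    (ht : t < w.length) {l : Fin n} (h1 : posW w t l = swp w t ∨ posW w t l = swp w t + 1) :
    wire w l (t + 1 / 2) = swp w t + 1 / 2 := by
  unfold wire
  rw [interp_of_mem ht (by linarith) (by linarith)]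
  rcases h1 with h1 | h1
  · have h3 : posW w (t + 1) l = swp w t + 1 := by
      rw [posW_succ hw ht, if_pos h1]
    rw [h3, h1]
    push_cast
    ring
  · have h3 : posW w (t + 1) l = swp w t := by
      rw [posW_succ hw ht, if_neg (by omega), if_pos h1]
    rw [h3, h1]
    push_cast
    ring

/-- At a crossing of `i` and `j` every other wire has a different height. -/
theorem wire_simple {w : List ℕ} (hw : UpW (1 : Equiv.Perm (Fin n)) w)
    (hr : runW (1 : Equiv.Perm (Fin n)) w = Fin.revPerm) {i j l : Fin n} {x : ℝ} (hij : i < j)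
    (hil : i ≠ l) (hjl : j ≠ l) (h : wire w i x = wire w j x) : wire w i x ≠ wire w l x := by
  obtain ⟨t, ht, hi, hj, hb, ha⟩ := exists_time hw hr hij
  obtain ⟨_, h2, h3⟩ := wire_cross hw ht hi hj hb ha
  have hx : x = t + 1 / 2 := by
    rcases lt_trichotomy x (t + 1 / 2) with h4 | h4 | h4
    · exact absurd h (h2 x h4).ne
    · exact h4
    · exact absurd h (h3 x h4).ne'
  subst hx
  have hl1 : posW w t l ≠ swp w t := fun e => hil (posW_inj (hi.trans e.symm))
  have hl2 : posW w t l ≠ swp w t + 1 := fun e => hjl (posW_inj (hj.trans e.symm))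
  rw [wire_at hw ht (Or.inl hi), wire_other hw ht hl1 hl2]
  intro e
  have e2 : ((2 * swp w t + 1 : ℕ) : ℝ) = ((2 * posW w t l : ℕ) : ℝ) := by
    push_cast
    linarith
  have e3 : 2 * swp w t + 1 = 2 * posW w t l := by exact_mod_cast e2
  omega

theorem isPseudolineArrangement_wire {w : List ℕ} (hw : UpW (1 : Equiv.Perm (Fin n)) w)
    (hr : runW (1 : Equiv.Perm (Fin n)) w = Fin.revPerm) :
    IsPseudolineArrangement (fun i : Fin n => wire w i) where
  continuous := fun i => continuous_interp w.length (fun t => (posW w t i : ℝ))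
  cross := by
    intro i j hij
    rcases lt_or_gt_of_ne hij with h | h
    · obtain ⟨t, ht, hi, hj, hb, ha⟩ := exists_time hw hr h
      obtain ⟨h1, h2, h3⟩ := wire_cross hw ht hi hj hb ha
      exact ⟨_, h1, Or.inl ⟨h2, h3⟩⟩
    · obtain ⟨t, ht, hi, hj, hb, ha⟩ := exists_time hw hr h
      obtain ⟨h1, h2, h3⟩ := wire_cross hw ht hi hj hb ha
      exact ⟨_, h1.symm, Or.inr ⟨h2, h3⟩⟩
  simple := by
    intro i j l x hij hil hjl h
    rcases lt_or_gt_of_ne hij with h1 | h1
    · exact wire_simple hw hr h1 hil hjl h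
    · intro h2
      exact wire_simple hw hr h1 hjl hil h.symm (h.symm.trans h2)

/-- The number of the wires below a crossing. -/
theorem ncard_below {w : List ℕ} (hw : UpW (1 : Equiv.Perm (Fin n)) w) {t : ℕ}
    (ht : t < w.length) {i : Fin n} (hi : posW w t i = swp w t) :
    Set.ncard {l : Fin n | wire w l (t + 1 / 2) < wire w i (t + 1 / 2)} = swp w t := by
  have e1 : {l : Fin n | wire w l (t + 1 / 2) < wire w i (t + 1 / 2)} =
      {l : Fin n | posW w t l < swp w t} := by
    ext l
    simp only [Set.mem_ofPred_eq]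
    rw [wire_at hw ht (Or.inl hi)]
    by_cases h : posW w t l = swp w t ∨ posW w t l = swp w t + 1
    · rw [wire_at hw ht h]
      constructor
      · intro h'; exact absurd h' (lt_irrefl _)
      · intro h'; omega
    · push Not at h
      rw [wire_other hw ht h.1 h.2]
      constructor
      · intro h'
        have h3 : ((2 * posW w t l : ℕ) : ℝ) < ((2 * swp w t + 1 : ℕ) : ℝ) := by
          push_cast; linarith
        have h4 : 2 * posW w t l < 2 * swp w t + 1 := by exact_mod_cast h3
        omega
      · intro h'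
        have h3 : ((posW w t l : ℕ) : ℝ) < swp w t := by exact_mod_cast h'
        linarith
  rw [e1]
  have hp := posW_lt w t i
  rw [hi] at hp
  have e2 : {l : Fin n | posW w t l < swp w t} =
      (runW (1 : Equiv.Perm (Fin n)) (w.take t)) '' {q : Fin n | (q : ℕ) < swp w t} := by
    ext l
    simp only [Set.mem_ofPred_eq, Set.mem_image]
    constructor
    · intro h
      exact ⟨(runW (1 : Equiv.Perm (Fin n)) (w.take t)).symm l, h, by simp⟩
    · rintro ⟨q, hq, rfl⟩
      simpa [posW] using hq
  rw [e2, Set.ncard_image_of_injective _ (Equiv.injective _)]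
  have e3 : {q : Fin n | (q : ℕ) < swp w t} = ((Finset.univ.filter
      (fun q : Fin n => (q : ℕ) < swp w t) : Finset (Fin n)) : Set (Fin n)) := by
    ext q; simp
  rw [e3, Set.ncard_coe_finset]
  have e4 : (Finset.univ.filter (fun q : Fin n => (q : ℕ) < swp w t)).map Fin.valEmbedding =
      Finset.range (swp w t) := by
    ext a
    simp only [Finset.mem_map, Finset.mem_filter, Finset.mem_univ, true_and,
      Fin.valEmbedding_apply, Finset.mem_range]
    constructor
    · rintro ⟨q, hq, rfl⟩; exact hq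
    · intro ha; exact ⟨⟨a, by omega⟩, ha, rfl⟩
  rw [← Finset.card_map Fin.valEmbedding, e4, Finset.card_range]

theorem countP_eq (P : ℕ → Bool) (w : List ℕ) :
    w.countP P = ((Finset.range w.length).filter (fun t => P (swp w t) = true)).card := by
  induction w using List.reverseRecOn with
  | nil => simp
  | append_singleton w a ih =>
    rw [List.countP_append, List.length_append, List.length_singleton, Finset.range_add_one,
      Finset.filter_insert]
    have e1 : swp (w ++ [a]) w.length = a := by
      simp [swp]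
    have e2 : (Finset.range w.length).filter (fun t => P (swp (w ++ [a]) t) = true) =
        (Finset.range w.length).filter (fun t => P (swp w t) = true) := by
      apply Finset.filter_congr
      intro t ht
      rw [Finset.mem_range] at ht
      have : swp (w ++ [a]) t = swp w t := by
        unfold swp
        rw [List.getD_append _ _ _ _ ht]
      rw [this]
    rw [e1, e2, ih]
    by_cases h : P a = true
    · rw [if_pos h, Finset.card_insert_of_notMem (by simp)]
      simp [h]
    · rw [if_neg h]
      simp [h]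

/-- A word of swaps gives an arrangement with many vertices on a level. -/
theorem levelVertices_wire {w : List ℕ} (hw : UpW (1 : Equiv.Perm (Fin n)) w)
    (hr : runW (1 : Equiv.Perm (Fin n)) w = Fin.revPerm) (k : ℕ) :
    w.countP (fun p => decide (p + 1 = k)) ≤ levelVertices (fun i : Fin n => wire w i) k := by
  classical
  have hex : ∀ t : ℕ, t < w.length → ∃ q : Fin n × Fin n, q.1 < q.2 ∧
      posW w t q.1 = swp w t ∧ posW w t q.2 = swp w t + 1 := by
    intro t ht
    obtain ⟨i, j, h1, h2, h3⟩ := exists_pair hw ht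
    exact ⟨(i, j), h1, h2, h3⟩
  rcases Nat.eq_zero_or_pos w.length with hl | hl
  · rw [List.length_eq_zero_iff] at hl
    subst hl
    simp
  obtain ⟨q0, _⟩ := hex 0 hl
  have hex' : ∀ t : ℕ, ∃ q : Fin n × Fin n, t < w.length → q.1 < q.2 ∧
      posW w t q.1 = swp w t ∧ posW w t q.2 = swp w t + 1 := by
    intro t
    by_cases ht : t < w.length
    · obtain ⟨q, hq⟩ := hex t ht
      exact ⟨q, fun _ => hq⟩
    · exact ⟨q0, fun h => absurd h ht⟩
  choose F hF using hex'
  rw [countP_eq, ← Set.ncard_coe_finset]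
  unfold levelVertices
  apply Set.ncard_le_ncard_of_injOn F
  · intro t ht
    simp only [Finset.coe_filter, Finset.mem_range, decide_eq_true_eq, Set.mem_ofPred_eq] at ht
    obtain ⟨h1, h2, h3⟩ := hF t ht.1
    refine ⟨h1, t + 1 / 2, ?_, ?_⟩
    · show wire w (F t).1 (t + 1 / 2) = wire w (F t).2 (t + 1 / 2)
      rw [wire_at hw ht.1 (Or.inl h2), wire_at hw ht.1 (Or.inr h3)]
    · have h4 := ncard_below hw ht.1 h2
      show Set.ncard {l : Fin n | wire w l (t + 1 / 2) < wire w (F t).1 (t + 1 / 2)} + 1 = k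
      rw [h4]
      exact ht.2
  · intro t ht t' ht' h
    simp only [Finset.coe_filter, Finset.mem_range, decide_eq_true_eq, Set.mem_ofPred_eq] at ht ht'
    obtain ⟨h1, h2, h3⟩ := hF t ht.1
    obtain ⟨_, h2', h3'⟩ := hF t' ht'.1
    rw [← h] at h2' h3'
    obtain ⟨u, hu, hi, hj, hb, ha⟩ := exists_time hw hr h1
    have key : ∀ v, v < w.length → posW w v (F t).1 = swp w v →
        posW w v (F t).2 = swp w v + 1 → v = u := by
      intro v hv e1 e2
      rcases lt_trichotomy v u with h4 | h4 | h4
      · have h5 := hb (v + 1) h4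
        rw [posW_succ hw hv, posW_succ hw hv] at h5
        rw [if_pos e1, if_neg (by omega), if_pos e2] at h5
        omega
      · exact h4
      · have h5 := ha v h4 hv.le
        omega
    rw [key t ht.1 h2 h3, key t' ht'.1 h2' h3']

end P065HP
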