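import Mathlib
import Vale.Agent.P065.HP.Pad
import Vale.Agent.P065.HP.Wire

/-!
P065: from chains of strongly separated sets to levels in arrangements of pseudolines.
-/

namespace P065HP

/-- A chain of length one. -/
def NatChain.one (k : ℕ) (hk : 1 ≤ k) : NatChain (2 * k) k 1 where
  S := fun t => Finset.range (k - 1) ∪ {k - 1 + t}
  bd := by
    intro t ht x hx
    rw [Finset.mem_union, Finset.mem_range, Finset.mem_singleton] at hx
    omega
  card_eq := by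
    intro t _
    rw [Finset.card_union_of_disjoint, Finset.card_range, Finset.card_singleton]
    · omega
    · rw [Finset.disjoint_left]
      intro x hx hx'
      rw [Finset.mem_range] at hx
      rw [Finset.mem_singleton] at hx'
      omega
  ne := by
    intro t ht h
    have h1 : k - 1 + t ∈ Finset.range (k - 1) ∪ {k - 1 + (t + 1)} := by
      rw [← h]; simp
    rw [Finset.mem_union, Finset.mem_range, Finset.mem_singleton] at h1
    omega
  sep := by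
    intro s t hst ht x hx hx' y hy hy'
    rw [Finset.mem_union, Finset.mem_range, Finset.mem_singleton] at hx hx' hy hy'
    omega

theorem exists_arrangement {n k T : ℕ} (C : NatChain n k T) :
    ∃ f : Fin n → ℝ → ℝ, IsPseudolineArrangement f ∧ T ≤ levelVertices f k := by
  obtain ⟨w, h1, h2, h3⟩ := chain_word C.toSep
  exact ⟨fun i => wire w i, isPseudolineArrangement_wire h1 h2,
    h3.trans (levelVertices_wire h1 h2 k)⟩

/-- Copies of a chain in blocks. -/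
theorem exists_arrangement_blocks {n k T : ℕ} (C : NatChain (2 * k) k T) (hk : 1 ≤ k)
    (hn : 2 * k ≤ n) :
    ∃ f : Fin n → ℝ → ℝ, IsPseudolineArrangement f ∧
      (n : ℝ) * T ≤ 4 * k * levelVertices f k := by
  have hm : 1 ≤ n / (2 * k) := by
    rw [Nat.le_div_iff_mul_le (by omega)]
    omega
  obtain ⟨f, hf, hT⟩ := exists_arrangement (C.blocks hk (n / (2 * k)) n hm (Nat.div_mul_le_self _ _))
  refine ⟨f, hf, ?_⟩
  set m := n / (2 * k) with hmdef
  have h1 : m * T ≤ levelVertices f k := by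
    have : m * T ≤ m * (T + 1) - 1 := by
      rw [mul_add]
      omega
    exact this.trans hT
  have h2 : n ≤ 4 * k * m := by
    have h3 := Nat.div_add_mod n (2 * k)
    have h4 := Nat.mod_lt n (by omega : 0 < 2 * k)
    rw [← hmdef] at h3
    have h5 : 2 * k * 1 ≤ 2 * k * m := Nat.mul_le_mul_left _ hm
    have h6 : 4 * k * m = 2 * k * m + 2 * k * m := by ring
    omega
  have h7 : (n : ℝ) ≤ 4 * k * m := by exact_mod_cast h2
  have h8 : (m : ℝ) * T ≤ levelVertices f k := by exact_mod_cast h1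
  have h9 : (0 : ℝ) ≤ T := Nat.cast_nonneg _
  have h10 : (0 : ℝ) ≤ 4 * k := by positivity
  calc (n : ℝ) * T ≤ (4 * k * m) * T := mul_le_mul_of_nonneg_right h7 h9
    _ = 4 * k * (m * T) := by ring
    _ ≤ 4 * k * levelVertices f k := mul_le_mul_of_nonneg_left h8 h10

/-- The chains needed for the level `k`. -/
theorem exists_chain (b C : ℕ) (hb : 2 ≤ b) (hC : 1 ≤ C)
    (H : ∀ l : ℕ, ∃ N K T : ℕ, N ≤ C * b ^ l ∧ (2 * b) ^ l ≤ T ∧ Nonempty (SepChain N K T))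
    (k : ℕ) (hk : 1 ≤ k) :
    ∃ T : ℕ, Nonempty (NatChain (2 * k) k T) ∧
      (k : ℝ) ^ (1 + Real.logb b 2) ≤ ((C : ℝ) * b) ^ 2 * T := by
  have hbR : (1 : ℝ) < b := by exact_mod_cast (by omega : 1 < b)
  have hb0 : (0 : ℝ) < b := by linarith
  have hCR : (1 : ℝ) ≤ C := by exact_mod_cast hC
  have hkR : (1 : ℝ) ≤ k := by exact_mod_cast hk
  have hθ0 : 0 ≤ Real.logb b 2 := Real.logb_nonneg hbR (by norm_num)
  have hθ1 : Real.logb b 2 ≤ 1 := by
    rw [Real.logb_le_iff_le_rpow hbR (by norm_num), Real.rpow_one]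
    exact_mod_cast hb
  have hCb : (1 : ℝ) ≤ C * b := by nlinarith
  rcases lt_or_ge k C with h | h
  · refine ⟨1, ⟨NatChain.one k hk⟩, ?_⟩
    have h1 : (k : ℝ) ≤ C * b := by
      have : (k : ℝ) ≤ C := by exact_mod_cast h.le
      nlinarith
    calc (k : ℝ) ^ (1 + Real.logb b 2) ≤ (k : ℝ) ^ (2 : ℝ) :=
          Real.rpow_le_rpow_of_exponent_le hkR (by linarith)
      _ = (k : ℝ) ^ 2 := by norm_cast
      _ ≤ ((C : ℝ) * b) ^ 2 := pow_le_pow_left₀ (by linarith) h1 2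
      _ = ((C : ℝ) * b) ^ 2 * (1 : ℕ) := by simp
  · -- the largest possible `l`
    have hex : ∃ l : ℕ, k < C * b ^ l := by
      obtain ⟨l, hl⟩ := pow_unbounded_of_one_lt (k : ℝ) hbR
      refine ⟨l, ?_⟩
      have h2 : k < b ^ l := by exact_mod_cast hl
      calc k < b ^ l := h2
        _ = 1 * b ^ l := (one_mul _).symm
        _ ≤ C * b ^ l := Nat.mul_le_mul_right _ hC
    classical
    have h3 := Nat.find_spec hex
    have h4 : Nat.find hex ≠ 0 := by
      intro e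
      rw [e] at h3
      simp at h3
      omega
    obtain ⟨l, hl⟩ := Nat.exists_eq_succ_of_ne_zero h4
    rw [Nat.succ_eq_add_one] at hl
    have h5 : C * b ^ l ≤ k := by
      have := Nat.find_min hex (m := l) (by omega)
      omega
    rw [hl] at h3
    obtain ⟨N, K, T, hN, hT, ⟨D⟩⟩ := H l
    have hKN : K ≤ N := by
      have h6 := D.card_eq 0 (Nat.zero_le _)
      have h7 := Finset.card_le_univ (D.S 0)
      rw [h6, Fintype.card_fin] at h7
      exact h7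
    refine ⟨T, ⟨(NatChain.ofSep D).pad k (by omega) (by omega)⟩, ?_⟩
    have h8 : (k : ℝ) ≤ (C * b) * (b : ℝ) ^ l := by
      have : k ≤ C * b ^ (l + 1) := h3.le
      have h9 : (k : ℝ) ≤ C * (b : ℝ) ^ (l + 1) := by exact_mod_cast this
      calc (k : ℝ) ≤ C * (b : ℝ) ^ (l + 1) := h9
        _ = (C * b) * (b : ℝ) ^ l := by ring
    have h10 : ((b : ℝ) ^ l) ^ (1 + Real.logb b 2) = (2 * (b : ℝ)) ^ l := by
      rw [← Real.rpow_natCast, ← Real.rpow_mul hb0.le, mul_comm (l : ℝ), Real.rpow_mul hb0.le,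
        Real.rpow_add hb0, Real.rpow_one, Real.rpow_logb hb0 hbR.ne' (by norm_num),
        Real.rpow_natCast]
      ring
    have h11 : ((2 : ℝ) * b) ^ l ≤ T := by exact_mod_cast hT
    calc (k : ℝ) ^ (1 + Real.logb b 2) ≤ ((C * b) * (b : ℝ) ^ l) ^ (1 + Real.logb b 2) :=
          Real.rpow_le_rpow (by linarith) h8 (by linarith)
      _ = ((C : ℝ) * b) ^ (1 + Real.logb b 2) * ((b : ℝ) ^ l) ^ (1 + Real.logb b 2) :=
          Real.mul_rpow (by linarith) (by positivity)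
      _ = ((C : ℝ) * b) ^ (1 + Real.logb b 2) * (2 * (b : ℝ)) ^ l := by rw [h10]
      _ ≤ ((C : ℝ) * b) ^ (2 : ℝ) * (2 * (b : ℝ)) ^ l := by
          apply mul_le_mul_of_nonneg_right _ (by positivity)
          exact Real.rpow_le_rpow_of_exponent_le hCb (by linarith)
      _ = ((C : ℝ) * b) ^ 2 * (2 * (b : ℝ)) ^ l := by norm_cast
      _ ≤ ((C : ℝ) * b) ^ 2 * T := mul_le_mul_of_nonneg_left h11 (by positivity)

/-- The main statement, for all levels. -/
theorem all_levels (b C : ℕ) (hb : 2 ≤ b) (hC : 1 ≤ C)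
    (H : ∀ l : ℕ, ∃ N K T : ℕ, N ≤ C * b ^ l ∧ (2 * b) ^ l ≤ T ∧ Nonempty (SepChain N K T)) :
    ∃ c₀ : ℝ, 0 < c₀ ∧ ∀ n k : ℕ, 1 ≤ k → 2 * k ≤ n →
      ∃ f : Fin n → ℝ → ℝ, IsPseudolineArrangement f ∧
        c₀ * n * (k : ℝ) ^ Real.logb b 2 ≤ levelVertices f k := by
  have hbR : (1 : ℝ) < b := by exact_mod_cast (by omega : 1 < b)
  have hb0 : (0 : ℝ) < b := by linarith
  have hCR : (1 : ℝ) ≤ C := by exact_mod_cast hC
  have hA : 0 < ((C : ℝ) * b) ^ 2 := by positivity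
  refine ⟨(4 * ((C : ℝ) * b) ^ 2)⁻¹, by positivity, fun n k hk hn => ?_⟩
  obtain ⟨T, ⟨D⟩, hT⟩ := exists_chain b C hb hC H k hk
  obtain ⟨f, hf, hfT⟩ := exists_arrangement_blocks D hk hn
  refine ⟨f, hf, ?_⟩
  have hk0 : (0 : ℝ) < k := by exact_mod_cast hk
  have h1 : (k : ℝ) ^ (1 + Real.logb b 2) = k * (k : ℝ) ^ Real.logb b 2 := by
    rw [Real.rpow_add hk0, Real.rpow_one]
  rw [h1] at hT
  set A := ((C : ℝ) * b) ^ 2 with hAdef
  set P := (k : ℝ) ^ Real.logb b 2 with hP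
  have hn0 : (0 : ℝ) ≤ n := Nat.cast_nonneg n
  have h2 : (n : ℝ) * (k * P) ≤ A * (4 * k * levelVertices f k) := by
    calc (n : ℝ) * (k * P) ≤ n * (A * T) := mul_le_mul_of_nonneg_left hT hn0
      _ = A * (n * T) := by ring
      _ ≤ A * (4 * k * levelVertices f k) := mul_le_mul_of_nonneg_left hfT hA.le
  have h3 : (n : ℝ) * P ≤ 4 * A * levelVertices f k := by
    have h4 : k * ((n : ℝ) * P) ≤ k * (4 * A * levelVertices f k) := by nlinarith
    exact le_of_mul_le_mul_left h4 hk0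
  rw [mul_assoc, inv_mul_le_iff₀ (by positivity)]
  exact h3

/-- Large even numbers. -/
theorem halving_level (b : ℕ) (hb : 2 ≤ b) (c₀ e : ℝ) (hc : 0 < c₀) (he : e < Real.logb b 2)
    (H : ∀ n k : ℕ, 1 ≤ k → 2 * k ≤ n →
      ∃ f : Fin n → ℝ → ℝ, IsPseudolineArrangement f ∧
        c₀ * n * (k : ℝ) ^ Real.logb b 2 ≤ levelVertices f k) :
    ∃ k₀ : ℕ, ∀ k : ℕ, k₀ ≤ k → ∃ f : Fin (2 * k) → ℝ → ℝ, IsPseudolineArrangement f ∧
      ((2 * k : ℕ) : ℝ) ^ (1 + e) ≤ levelVertices f k := by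
  have hbR : (1 : ℝ) < b := by exact_mod_cast (by omega : 1 < b)
  set θ := Real.logb b 2 with hθ
  have h1 : Filter.Tendsto (fun x : ℝ => x ^ (θ - e)) Filter.atTop Filter.atTop :=
    tendsto_rpow_atTop (by linarith)
  have h2 := h1.eventually_ge_atTop ((2 : ℝ) ^ θ * c₀⁻¹)
  rw [Filter.eventually_atTop] at h2
  obtain ⟨x₀, hx₀⟩ := h2
  refine ⟨max 1 ⌈x₀⌉₊, fun k hk => ?_⟩
  have hk1 : 1 ≤ k := (le_max_left _ _).trans hk
  have hk2 : x₀ ≤ k := (Nat.le_ceil x₀).trans (by exact_mod_cast (le_max_right _ _).trans hk)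
  obtain ⟨f, hf, hv⟩ := H (2 * k) k hk1 le_rfl
  refine ⟨f, hf, le_trans ?_ hv⟩
  have hk0 : (0 : ℝ) < k := by exact_mod_cast hk1
  have h3 := hx₀ (2 * k) (by linarith)
  have h4 : (0 : ℝ) < 2 * k := by linarith
  have h5 : ((2 : ℝ) * k) ^ θ = ((2 : ℝ) * k) ^ (θ - e) * ((2 : ℝ) * k) ^ e := by
    rw [← Real.rpow_add h4]
    congr 1
    ring
  have h6 : ((2 : ℝ) * k) ^ θ = 2 ^ θ * (k : ℝ) ^ θ := Real.mul_rpow (by norm_num) hk0.le
  have h7 : (0 : ℝ) < 2 ^ θ := Real.rpow_pos_of_pos (by norm_num) _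
  have h8 : (0 : ℝ) < ((2 : ℝ) * k) ^ e := Real.rpow_pos_of_pos h4 _
  have h9 : ((2 : ℝ) * k) ^ e ≤ c₀ * (k : ℝ) ^ θ := by
    have h10 : 2 ^ θ * c₀⁻¹ * ((2 : ℝ) * k) ^ e ≤ 2 ^ θ * (k : ℝ) ^ θ := by
      rw [← h6, h5]
      exact mul_le_mul_of_nonneg_right h3 h8.le
    have h11 : c₀⁻¹ * ((2 : ℝ) * k) ^ e ≤ (k : ℝ) ^ θ := by
      have : 2 ^ θ * (c₀⁻¹ * ((2 : ℝ) * k) ^ e) ≤ 2 ^ θ * (k : ℝ) ^ θ := by
        rw [← mul_assoc]; exact h10
      exact le_of_mul_le_mul_left this h7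
    rwa [inv_mul_le_iff₀ hc] at h11
  push_cast
  rw [Real.rpow_add h4, Real.rpow_one]
  calc (2 : ℝ) * k * (2 * k) ^ e ≤ 2 * k * (c₀ * (k : ℝ) ^ θ) :=
        mul_le_mul_of_nonneg_left h9 h4.le
    _ = c₀ * (2 * k) * (k : ℝ) ^ θ := by ring

end P065HP
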