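import Vale.Agent.P065.HP.Fine

/-!
# Boxes of the refined words
-/

namespace P065HP

open Finset

theorem Mx_mono {y z : ℤ → ℤ} (h : ∀ i, y i ≤ z i) (x : ℤ) : Mx y x ≤ Mx z x := by
  unfold Mx
  have h1 := h (x / 2)
  have h2 := h (x / 2 - 1)
  split_ifs <;> linarith

theorem sum_Mx (w : ℤ → ℤ) (m : ℕ) :
    (∑ x ∈ range (2 * m), Mx w x) =
      4 * (∑ i ∈ range m, w i) + 4 * ∑ i ∈ range m, w ((i : ℤ) - 1) := by
  induction m with
  | zero => simp
  | succ m ih =>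
    rw [show 2 * (m + 1) = 2 * m + 1 + 1 by ring, sum_range_succ, sum_range_succ, ih,
      sum_range_succ, sum_range_succ]
    have h1 : Mx w ((2 * m : ℕ) : ℤ) = w m + 3 * w ((m : ℤ) - 1) := by
      push_cast; exact Mx_even w m
    have h2 : Mx w ((2 * m + 1 : ℕ) : ℤ) = 3 * w m + w ((m : ℤ) - 1) := by
      push_cast; exact Mx_odd w m
    rw [h1, h2]; ring

theorem sum_Mx_box (w : ℤ → ℤ) (L : ℕ) (h0 : w (-1) = 0) (hL : w L = 0) :
    (∑ x ∈ range (2 * L + 2), Mx w x) = 8 * ∑ i ∈ range L, w i := by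
  rw [show 2 * L + 2 = 2 * (L + 1) by ring, sum_Mx, sum_range_succ (fun i : ℕ => w i) L, hL,
    sum_range_succ' (fun i : ℕ => w ((i : ℤ) - 1)) L]
  have h1 : ∀ i : ℕ, w (((i + 1 : ℕ) : ℤ) - 1) = w i := by
    intro i; congr 1; push_cast; ring
  simp only [h1]
  rw [show ((0 : ℕ) : ℤ) - 1 = -1 by norm_num, h0]
  ring

theorem letter_bound (f : ℕ → ℤ) (n : ℕ) :
    2 * f (n / 512) ≤ fine f n ∧ fine f n ≤ 2 * f (n / 512) + 4 := by
  unfold fine
  have hlt : n % 512 < (tile f (n / 512)).length := by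
    rw [tile_length]; exact Nat.mod_lt _ (by norm_num)
  have h : (tile f (n / 512)).getD (n % 512) 0 < 5 := by
    rw [← List.getElem_eq_getD (h := hlt) 0]
    exact tl_lt _ _ _ (List.getElem_mem hlt)
  constructor <;> omega

theorem St_out {f : ℕ → ℤ} {L : ℕ} (hf : ∀ n, 0 ≤ f n ∧ f n + 1 < L) (n : ℕ) (x : ℤ)
    (hx : x < 0 ∨ (L : ℤ) ≤ x) : St f n x = 0 := by
  unfold St
  refine sum_eq_zero (fun m _ => ?_)
  have := hf m
  exact dl_other _ _ (by omega) (by omega)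

theorem PF_bound {r : ℤ} {X : ℤ → ℤ} (h : PF r X) (hr0 : 0 ≤ r) (hr1 : r ≤ 512) (x : ℤ) :
    -110 ≤ X x ∧ X x ≤ 110 := by
  have hr := And.intro hr0 hr1
  obtain ⟨out, p0, p1, p4, p5, e0, e1, e2, e3, e4, e5⟩ := h
  by_cases ho : x < 0 ∨ 5 < x
  · rw [out x ho]; omega
  · have : x = 0 ∨ x = 1 ∨ x = 2 ∨ x = 3 ∨ x = 4 ∨ x = 5 := by omega
    rcases this with rfl | rfl | rfl | rfl | rfl | rfl <;> omega

/-- New lower end. -/
def loN (L : ℕ) (lo : ℤ → ℤ) (x : ℤ) : ℤ :=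
  if 0 ≤ x ∧ x < ((2 * L + 2 : ℕ) : ℤ) then 32 * Mx lo x - 110 else 0

/-- New upper end. -/
def hiN (L : ℕ) (hi : ℤ → ℤ) (x : ℤ) : ℤ :=
  if 0 ≤ x ∧ x < ((2 * L + 2 : ℕ) : ℤ) then 32 * Mx hi x + 110 else 0

/-- The refinement step for boxes. -/
theorem box_step {T L : ℕ} {f : ℕ → ℤ} {lo hi : ℤ → ℤ} (hb : Boxed T L f lo hi)
    (hlo : ∀ x, x < 0 ∨ (L : ℤ) ≤ x → lo x = 0) (hhi : ∀ x, x < 0 ∨ (L : ℤ) ≤ x → hi x = 0) :
    Boxed (512 * T) (2 * L + 2) (fine f) (loN L lo) (hiN L hi) := by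
  obtain ⟨hf, hS⟩ := hb
  have hall : ∀ n, n ≤ T → ∀ x : ℤ, lo x ≤ St f n x ∧ St f n x ≤ hi x := by
    intro n hn x
    by_cases hx : x < 0 ∨ (L : ℤ) ≤ x
    · rw [hlo x hx, hhi x hx, St_out hf n x hx]; simp
    · obtain ⟨x, rfl⟩ : ∃ y : ℕ, x = y := ⟨x.toNat, by omega⟩
      exact hS n hn x (by omega) (by omega)
  refine ⟨?_, ?_⟩
  · intro n
    have h1 := letter_bound f n
    have h2 := hf (n / 512)
    constructor
    · omega
    · push_cast; omega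
  · intro n hn x hx0 hx1
    have hc : (0 : ℤ) ≤ (x : ℤ) ∧ (x : ℤ) < ((2 * L + 2 : ℕ) : ℤ) :=
      ⟨by omega, by exact_mod_cast hx1⟩
    unfold loN hiN
    rw [if_pos hc, if_pos hc]
    obtain ⟨i, r, hr, hi', rfl⟩ : ∃ i r : ℕ, r ≤ 512 ∧ i ≤ T ∧ n = 512 * i + r := by
      refine ⟨n / 512, n % 512, ?_, ?_, ?_⟩ <;> omega
    rw [St_fine f i r hr x]
    have hm1 := Mx_mono (fun y => (hall i hi' y).1) x
    have hm2 := Mx_mono (fun y => (hall i hi' y).2) x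
    have hp := PF_bound (tl_PF (sg f i) (f (i + 1) - f i) r hr) (by omega) (by omega)
      (x - 2 * f i)
    change -110 ≤ vec ((tile f i).take r) (x - 2 * f i) ∧
      vec ((tile f i).take r) (x - 2 * f i) ≤ 110 at hp
    have e1 : Mx (fun y => St f i y) x = Mx (St f i) x := rfl
    have e2 : Mx (fun y => lo y) x = Mx lo x := rfl
    have e3 : Mx (fun y => hi y) x = Mx hi x := rfl
    constructor <;> linarith [hp.1, hp.2]

theorem box_sum {T L : ℕ} {f : ℕ → ℤ} {lo hi : ℤ → ℤ} (hb : Boxed T L f lo hi)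
    (hlo : ∀ x, x < 0 ∨ (L : ℤ) ≤ x → lo x = 0) (hhi : ∀ x, x < 0 ∨ (L : ℤ) ≤ x → hi x = 0) :
    (∑ i ∈ range (2 * L + 2), (hiN L hi i - loN L lo i).toNat) =
      256 * (∑ i ∈ range L, (hi i - lo i).toNat) + 220 * (2 * L + 2) := by
  obtain ⟨hf, hS⟩ := hb
  have hw : ∀ x : ℤ, 0 ≤ hi x - lo x := by
    intro x
    by_cases hx : x < 0 ∨ (L : ℤ) ≤ x
    · rw [hlo x hx, hhi x hx]; simp
    · obtain ⟨x, rfl⟩ : ∃ y : ℕ, x = y := ⟨x.toNat, by omega⟩
      have := hS 0 (Nat.zero_le _) x (by omega) (by omega)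
      linarith [this.1, this.2]
  zify
  have e1 : ∀ i ∈ range L, (((hi i - lo i).toNat : ℕ) : ℤ) = hi i - lo i := by
    intro i _
    exact Int.toNat_of_nonneg (hw i)
  have e2 : ∀ i ∈ range (2 * L + 2), (((hiN L hi i - loN L lo i).toNat : ℕ) : ℤ) =
      32 * Mx (fun x => hi x - lo x) i + 220 := by
    intro i hi'
    rw [mem_range] at hi'
    have hc : (0 : ℤ) ≤ (i : ℤ) ∧ (i : ℤ) < ((2 * L + 2 : ℕ) : ℤ) :=
      ⟨Int.natCast_nonneg i, by exact_mod_cast hi'⟩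
    have h0 : 0 ≤ Mx (fun x => hi x - lo x) i := by
      have := Mx_mono (y := fun _ => 0) (z := fun x => hi x - lo x) hw (i : ℤ)
      rwa [Mx_zero] at this
    have h1 : hiN L hi i - loN L lo i = 32 * Mx (fun x => hi x - lo x) i + 220 := by
      unfold hiN loN
      rw [if_pos hc, if_pos hc, Mx_sub]; ring
    rw [h1]
    exact Int.toNat_of_nonneg (by linarith)
  rw [sum_congr rfl e1, sum_congr rfl e2, sum_add_distrib, ← mul_sum,
    sum_Mx_box (fun x => hi x - lo x) L (by simp [hlo (-1) (Or.inl (by norm_num)),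
      hhi (-1) (Or.inl (by norm_num))]) (by simp [hlo L (Or.inr le_rfl), hhi L (Or.inr le_rfl)])]
  simp only [sum_const, card_range, nsmul_eq_mul]
  push_cast
  ring

theorem box_iter_aux (l : ℕ) : ∃ (L : ℕ) (lo hi : ℤ → ℤ),
    Boxed (512 ^ l) L (fine^[l] (fun _ => (0 : ℤ))) lo hi ∧
    (∀ x, x < 0 ∨ (L : ℤ) ≤ x → lo x = 0) ∧ (∀ x, x < 0 ∨ (L : ℤ) ≤ x → hi x = 0) ∧
    (∑ i ∈ range L, (hi i - lo i).toNat) + 2 * (L + 2) ≤ 10 * 256 ^ l := by
  induction l with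
  | zero =>
    refine ⟨2, fun x => if x = 1 then -1 else 0, fun x => if x = 0 then 1 else 0, ?_, ?_, ?_, ?_⟩
    · refine ⟨?_, ?_⟩
      · intro n; simp
      · intro n hn x hx0 hx1
        have hn' : n = 0 ∨ n = 1 := by
          rw [pow_zero] at hn; omega
        have hx' : x = 0 ∨ x = 1 := by omega
        rcases hn' with rfl | rfl <;> rcases hx' with rfl | rfl <;>
          simp [St, dl]
    · intro x hx
      have : x ≠ 1 := by push_cast at hx; omega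
      simp [this]
    · intro x hx
      have : x ≠ 0 := by push_cast at hx; omega
      simp [this]
    · simp [sum_range_succ]
  | succ l ih =>
    obtain ⟨L, lo, hi, hb, hlo, hhi, hN⟩ := ih
    refine ⟨2 * L + 2, loN L lo, hiN L hi, ?_, ?_, ?_, ?_⟩
    · rw [Function.iterate_succ_apply', pow_succ, Nat.mul_comm (512 ^ l) 512]
      exact box_step hb hlo hhi
    · intro x hx
      unfold loN
      rw [if_neg (by omega)]
    · intro x hx
      unfold hiN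
      rw [if_neg (by omega)]
    · rw [box_sum hb hlo hhi, pow_succ]
      nlinarith [hN]

/-- The words obtained from the constant word by `l` refinements have length `512 ^ l` and use at
most `10 * 256 ^ l` points. -/
theorem box_iter : ∃ C : ℕ, 1 ≤ C ∧ ∀ l : ℕ, ∃ (L : ℕ) (lo hi : ℤ → ℤ),
    Boxed (512 ^ l) L (fine^[l] (fun _ => (0 : ℤ))) lo hi ∧
    (∑ i ∈ range L, (hi i - lo i).toNat) ≤ C * 256 ^ l := by
  refine ⟨10, by norm_num, fun l => ?_⟩
  obtain ⟨L, lo, hi, hb, _, _, hN⟩ := box_iter_aux l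
  exact ⟨L, lo, hi, hb, by omega⟩

end P065HP
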