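import Mathlib.Tactic

/-!
# The middle sites of a long window

`Mid` collects the data at the four coarse sites `J-1, J, J+1, J+2`: the full part
`(xm, x0, x1, x2)`, the effect `(a, b, c, d)` of the coarse letter at the left end and the effect
`(a', b', c', d')` of the coarse letter at the right end of the window; `k` and `q` (between 0 and
512) are the lengths of the parts of the two tiles inside the window.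
-/

namespace P065HP

/-- Effect of one coarse letter on the four coarse sites. -/
def Eff (a b c d : ℤ) : Prop :=
  (a = -1 ∧ b = 0 ∧ c = 0 ∧ d = 0) ∨ (a = 1 ∧ b = -1 ∧ c = 0 ∧ d = 0) ∨
  (a = 0 ∧ b = 1 ∧ c = -1 ∧ d = 0) ∨ (a = 0 ∧ b = 0 ∧ c = 1 ∧ d = -1) ∨
  (a = 0 ∧ b = 0 ∧ c = 0 ∧ d = 1) ∨ (a = 0 ∧ b = 0 ∧ c = 0 ∧ d = 0)

/-- Corner condition. -/
def Cor (xm x0 x1 x2 : ℤ) : Prop :=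
  0 ≤ xm ∧ x1 ≤ 0 ∧ x2 ≤ 0 ∧ ((x0 ≤ 0 ∧ 1 ≤ xm ∧ x0 + x1 < 0) ∨ (1 ≤ x0 ∧ x1 + x2 < 0))

/-- Data of a long window at the four coarse sites. -/
structure Mid (a b c d a' b' c' d' xm x0 x1 x2 k q : ℤ) : Prop where
  h : Eff a b c d
  h' : Eff a' b' c' d'
  c00 : Cor xm x0 x1 x2
  c10 : Cor (xm + a) (x0 + b) (x1 + c) (x2 + d)
  c01 : Cor (xm + a') (x0 + b') (x1 + c') (x2 + d')
  c11 : Cor (xm + a + a') (x0 + b + b') (x1 + c + c') (x2 + d + d')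
  hpos : 1 ≤ x0 ∨ 1 ≤ x0 + b ∨ 1 ≤ x0 + b' ∨ 1 ≤ x0 + b + b'
  hk0 : 0 ≤ k
  hk1 : k ≤ 512
  hq0 : 0 ≤ q
  hq1 : q ≤ 512

variable {a b c d a' b' c' d' xm x0 x1 x2 k q : ℤ}

theorem core1 (M : Mid a b c d a' b' c' d' xm x0 x1 x2 k q) (D0 : ℤ)
    (e0 : -224 ≤ D0 ∧ D0 ≤ 224) :
    0 < (512 * (3 * xm + x0) + k * (3 * a + b) + q * (3 * a' + b') + D0) := by
  obtain ⟨h, h', c00, c10, c01, c11, hpos, hk0, hk1, hq0, hq1⟩ := M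
  unfold Eff at h h'
  unfold Cor at c00 c10 c01 c11
  rcases h with ⟨rfl, rfl, rfl, rfl⟩ | ⟨rfl, rfl, rfl, rfl⟩ | ⟨rfl, rfl, rfl, rfl⟩ |
      ⟨rfl, rfl, rfl, rfl⟩ | ⟨rfl, rfl, rfl, rfl⟩ | ⟨rfl, rfl, rfl, rfl⟩ <;>
  rcases h' with ⟨rfl, rfl, rfl, rfl⟩ | ⟨rfl, rfl, rfl, rfl⟩ | ⟨rfl, rfl, rfl, rfl⟩ |
      ⟨rfl, rfl, rfl, rfl⟩ | ⟨rfl, rfl, rfl, rfl⟩ | ⟨rfl, rfl, rfl, rfl⟩ <;>
  omega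

theorem core2a (M : Mid a b c d a' b' c' d' xm x0 x1 x2 k q) (D1 D2 : ℤ)
    (e1 : -224 ≤ D1 ∧ D1 ≤ 224) (e2 : -224 ≤ D2 ∧ D2 ≤ 224)
    (g0 : (512 * (xm + 3 * x0) + k * (a + 3 * b) + q * (a' + 3 * b') + D1) ≤ 0) :
    (512 * (3 * x0 + x1) + k * (3 * b + c) + q * (3 * b' + c') + D2) < 0 := by
  obtain ⟨h, h', c00, c10, c01, c11, hpos, hk0, hk1, hq0, hq1⟩ := M
  unfold Eff at h h'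
  unfold Cor at c00 c10 c01 c11
  rcases h with ⟨rfl, rfl, rfl, rfl⟩ | ⟨rfl, rfl, rfl, rfl⟩ | ⟨rfl, rfl, rfl, rfl⟩ |
      ⟨rfl, rfl, rfl, rfl⟩ | ⟨rfl, rfl, rfl, rfl⟩ | ⟨rfl, rfl, rfl, rfl⟩ <;>
  rcases h' with ⟨rfl, rfl, rfl, rfl⟩ | ⟨rfl, rfl, rfl, rfl⟩ | ⟨rfl, rfl, rfl, rfl⟩ |
      ⟨rfl, rfl, rfl, rfl⟩ | ⟨rfl, rfl, rfl, rfl⟩ | ⟨rfl, rfl, rfl, rfl⟩ <;>
  omega

theorem core2b (M : Mid a b c d a' b' c' d' xm x0 x1 x2 k q) (D1 D3 : ℤ)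
    (e1 : -224 ≤ D1 ∧ D1 ≤ 224) (e3 : -224 ≤ D3 ∧ D3 ≤ 224)
    (g0 : (512 * (xm + 3 * x0) + k * (a + 3 * b) + q * (a' + 3 * b') + D1) ≤ 0) :
    (512 * (x0 + 3 * x1) + k * (b + 3 * c) + q * (b' + 3 * c') + D3) < 0 := by
  obtain ⟨h, h', c00, c10, c01, c11, hpos, hk0, hk1, hq0, hq1⟩ := M
  unfold Eff at h h'
  unfold Cor at c00 c10 c01 c11
  rcases h with ⟨rfl, rfl, rfl, rfl⟩ | ⟨rfl, rfl, rfl, rfl⟩ | ⟨rfl, rfl, rfl, rfl⟩ |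
      ⟨rfl, rfl, rfl, rfl⟩ | ⟨rfl, rfl, rfl, rfl⟩ | ⟨rfl, rfl, rfl, rfl⟩ <;>
  rcases h' with ⟨rfl, rfl, rfl, rfl⟩ | ⟨rfl, rfl, rfl, rfl⟩ | ⟨rfl, rfl, rfl, rfl⟩ |
      ⟨rfl, rfl, rfl, rfl⟩ | ⟨rfl, rfl, rfl, rfl⟩ | ⟨rfl, rfl, rfl, rfl⟩ <;>
  omega

theorem core3 (M : Mid a b c d a' b' c' d' xm x0 x1 x2 k q) (D2 D3 : ℤ)
    (e2 : -224 ≤ D2 ∧ D2 ≤ 224) (e3 : -224 ≤ D3 ∧ D3 ≤ 224)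
    (g0 : (512 * (3 * x0 + x1) + k * (3 * b + c) + q * (3 * b' + c') + D2) ≤ 0) :
    (512 * (x0 + 3 * x1) + k * (b + 3 * c) + q * (b' + 3 * c') + D3) < 0 := by
  obtain ⟨h, h', c00, c10, c01, c11, hpos, hk0, hk1, hq0, hq1⟩ := M
  unfold Eff at h h'
  unfold Cor at c00 c10 c01 c11
  rcases h with ⟨rfl, rfl, rfl, rfl⟩ | ⟨rfl, rfl, rfl, rfl⟩ | ⟨rfl, rfl, rfl, rfl⟩ |
      ⟨rfl, rfl, rfl, rfl⟩ | ⟨rfl, rfl, rfl, rfl⟩ | ⟨rfl, rfl, rfl, rfl⟩ <;>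
  rcases h' with ⟨rfl, rfl, rfl, rfl⟩ | ⟨rfl, rfl, rfl, rfl⟩ | ⟨rfl, rfl, rfl, rfl⟩ |
      ⟨rfl, rfl, rfl, rfl⟩ | ⟨rfl, rfl, rfl, rfl⟩ | ⟨rfl, rfl, rfl, rfl⟩ <;>
  omega

theorem core4 (M : Mid a b c d a' b' c' d' xm x0 x1 x2 k q) (D2 D3 D4 : ℤ)
    (e2 : -224 ≤ D2 ∧ D2 ≤ 224) (e3 : -224 ≤ D3 ∧ D3 ≤ 224) (e4 : -224 ≤ D4 ∧ D4 ≤ 224)
    (g0 : 0 < (512 * (3 * x0 + x1) + k * (3 * b + c) + q * (3 * b' + c') + D2))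
    (g1 : (512 * (x0 + 3 * x1) + k * (b + 3 * c) + q * (b' + 3 * c') + D3) = 0) :
    (512 * (3 * x1 + x2) + k * (3 * c + d) + q * (3 * c' + d') + D4) < 0 := by
  obtain ⟨h, h', c00, c10, c01, c11, hpos, hk0, hk1, hq0, hq1⟩ := M
  unfold Eff at h h'
  unfold Cor at c00 c10 c01 c11
  rcases h with ⟨rfl, rfl, rfl, rfl⟩ | ⟨rfl, rfl, rfl, rfl⟩ | ⟨rfl, rfl, rfl, rfl⟩ |
      ⟨rfl, rfl, rfl, rfl⟩ | ⟨rfl, rfl, rfl, rfl⟩ | ⟨rfl, rfl, rfl, rfl⟩ <;>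
  rcases h' with ⟨rfl, rfl, rfl, rfl⟩ | ⟨rfl, rfl, rfl, rfl⟩ | ⟨rfl, rfl, rfl, rfl⟩ |
      ⟨rfl, rfl, rfl, rfl⟩ | ⟨rfl, rfl, rfl, rfl⟩ | ⟨rfl, rfl, rfl, rfl⟩ <;>
  omega

theorem core5 (M : Mid a b c d a' b' c' d' xm x0 x1 x2 k q) (D3 D4 D5 : ℤ)
    (e3 : -224 ≤ D3 ∧ D3 ≤ 224) (e4 : -224 ≤ D4 ∧ D4 ≤ 224) (e5 : -224 ≤ D5 ∧ D5 ≤ 224)
    (g0 : 0 < (512 * (x0 + 3 * x1) + k * (b + 3 * c) + q * (b' + 3 * c') + D3)) :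
    (512 * (3 * x1 + x2) + k * (3 * c + d) + q * (3 * c' + d') + D4) + (512 * (x1 + 3 * x2) + k * (c + 3 * d) + q * (c' + 3 * d') + D5) < 0 := by
  obtain ⟨h, h', c00, c10, c01, c11, hpos, hk0, hk1, hq0, hq1⟩ := M
  unfold Eff at h h'
  unfold Cor at c00 c10 c01 c11
  rcases h with ⟨rfl, rfl, rfl, rfl⟩ | ⟨rfl, rfl, rfl, rfl⟩ | ⟨rfl, rfl, rfl, rfl⟩ |
      ⟨rfl, rfl, rfl, rfl⟩ | ⟨rfl, rfl, rfl, rfl⟩ | ⟨rfl, rfl, rfl, rfl⟩ <;>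
  rcases h' with ⟨rfl, rfl, rfl, rfl⟩ | ⟨rfl, rfl, rfl, rfl⟩ | ⟨rfl, rfl, rfl, rfl⟩ |
      ⟨rfl, rfl, rfl, rfl⟩ | ⟨rfl, rfl, rfl, rfl⟩ | ⟨rfl, rfl, rfl, rfl⟩ <;>
  omega

end P065HP
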