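import Vale.Agent.P065.HP.Fine

/-!
# Windows that contain a full coarse letter: the four corner windows
-/

namespace P065HP

/-- `Pat` with its witness. -/
def PatAt (b : ℤ) (X : ℤ → ℤ) : Prop :=
  (∀ i, i ≤ b → 0 ≤ X i) ∧ 0 < X b ∧ (∀ i, b < i → X i ≤ 0) ∧ X (b + 1) + X (b + 2) < 0

theorem dl_spec (a x : ℤ) : (x = a ∧ dl a x = 1) ∨ (x = a + 1 ∧ dl a x = -1) ∨
    (x ≠ a ∧ x ≠ a + 1 ∧ dl a x = 0) := by
  by_cases h1 : x = a
  · left; subst h1; exact ⟨rfl, dl_same _⟩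
  by_cases h2 : x = a + 1
  · right; left; subst h2; exact ⟨rfl, dl_next _⟩
  · right; right; exact ⟨h1, h2, dl_other a x h1 h2⟩

theorem near {X : ℤ → ℤ} {a b b' : ℤ} (h : PatAt b X) (h' : PatAt b' (fun x => X x + dl a x)) :
    b' ≤ b + 1 ∧ b ≤ b' + 1 := by
  obtain ⟨p1, p2, p3, p4⟩ := h
  obtain ⟨q1, q2, q3, q4⟩ := h'
  simp only at q1 q2 q3 q4
  constructor
  · by_contra hc
    have d1 := dl_spec a (b + 1)
    have d2 := dl_spec a (b + 2)
    have d3 := dl_spec a b'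
    have e1 := q1 (b + 1) (by omega)
    have e2 := q1 (b + 2) (by omega)
    have e3 := p3 b' (by omega)
    have e4 := p3 (b + 1) (by omega)
    have e5 := p3 (b + 2) (by omega)
    by_cases hb : b' = b + 2
    · subst hb; omega
    · omega
  · by_contra hc
    have d1 := dl_spec a (b' + 1)
    have d2 := dl_spec a (b' + 2)
    have d3 := dl_spec a b
    have e1 := p1 (b' + 1) (by omega)
    have e2 := p1 (b' + 2) (by omega)
    have e3 := q3 b (by omega)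
    have e4 := q3 (b' + 1) (by omega)
    have e5 := q3 (b' + 2) (by omega)
    by_cases hb : b = b' + 2
    · subst hb; omega
    · omega

theorem opp1 {Y : ℤ → ℤ} {a b B : ℤ} (h00 : PatAt B Y) (h10 : PatAt (B + 1) (fun x => Y x + dl a x))
    (h01 : PatAt (B + 1) (fun x => Y x + dl b x))
    (h11 : PatAt (B + 2) (fun x => Y x + dl a x + dl b x)) : False := by
  obtain ⟨p1, p2, p3, p4⟩ := h00
  obtain ⟨q1, q2, q3, q4⟩ := h10
  obtain ⟨r1, r2, r3, r4⟩ := h01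
  obtain ⟨s1, s2, s3, s4⟩ := h11
  simp only at q1 q2 q3 q4 r1 r2 r3 r4 s1 s2 s3 s4
  have d1 := dl_spec a (B + 1)
  have d2 := dl_spec a (B + 2)
  have d1' := dl_spec b (B + 1)
  have d2' := dl_spec b (B + 2)
  have e1 := p3 (B + 1) (by omega)
  have e2 := p3 (B + 2) (by omega)
  have e3 := s1 (B + 1) (by omega)
  have e4 := q3 (B + 2) (by omega)
  have e5 := r3 (B + 2) (by omega)
  have e6 := q1 (B + 1) (by omega)
  have e7 := r1 (B + 1) (by omega)
  omega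

theorem opp2 {Y : ℤ → ℤ} {a b B : ℤ} (h00 : PatAt (B + 2) Y)
    (h10 : PatAt (B + 1) (fun x => Y x + dl a x))
    (h01 : PatAt (B + 1) (fun x => Y x + dl b x))
    (h11 : PatAt B (fun x => Y x + dl a x + dl b x)) : False := by
  obtain ⟨p1, p2, p3, p4⟩ := h00
  obtain ⟨q1, q2, q3, q4⟩ := h10
  obtain ⟨r1, r2, r3, r4⟩ := h01
  obtain ⟨s1, s2, s3, s4⟩ := h11
  simp only at q1 q2 q3 q4 r1 r2 r3 r4 s1 s2 s3 s4
  have d1 := dl_spec a (B + 1)
  have d2 := dl_spec a (B + 2)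
  have d1' := dl_spec b (B + 1)
  have d2' := dl_spec b (B + 2)
  have e1 := p1 (B + 1) (by omega)
  have e2 := p1 (B + 2) (by omega)
  have e3 := s3 (B + 1) (by omega)
  have e3' := s3 (B + 2) (by omega)
  have e4 := q3 (B + 2) (by omega)
  have e5 := r3 (B + 2) (by omega)
  have e6 := q1 (B + 1) (by omega)
  have e7 := r1 (B + 1) (by omega)
  omega

theorem opp3 {Y : ℤ → ℤ} {a b B : ℤ} (h00 : PatAt (B + 1) Y)
    (h10 : PatAt (B + 2) (fun x => Y x + dl a x))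
    (h01 : PatAt B (fun x => Y x + dl b x)) : False := by
  obtain ⟨p1, p2, p3, p4⟩ := h00
  obtain ⟨q1, q2, q3, q4⟩ := h10
  obtain ⟨r1, r2, r3, r4⟩ := h01
  simp only at q1 q2 q3 q4 r1 r2 r3 r4
  have d1 := dl_spec a (B + 1)
  have d2 := dl_spec a (B + 2)
  have d1' := dl_spec b (B + 1)
  have d2' := dl_spec b (B + 2)
  have e1 := p3 (B + 2) (by omega)
  have e3 := r3 (B + 1) (by omega)
  have e4 := r3 (B + 2) (by omega)
  have e6 := q1 (B + 1) (by omega)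
  omega

/-- Local description of a corner window with respect to the site `J`. -/
def CJ (J : ℤ) (X : ℤ → ℤ) : Prop :=
  (∀ i, i < J → 0 ≤ X i) ∧ (∀ i, J < i → X i ≤ 0) ∧
    ((X J ≤ 0 ∧ 1 ≤ X (J - 1) ∧ X J + X (J + 1) < 0) ∨ (1 ≤ X J ∧ X (J + 1) + X (J + 2) < 0))

theorem CJ_of {b J : ℤ} {X : ℤ → ℤ} (h : PatAt b X) (hb : b = J ∨ b = J - 1) : CJ J X := by
  obtain ⟨p1, p2, p3, p4⟩ := h
  rcases hb with rfl | rfl
  · exact ⟨fun i hi => p1 i hi.le, p3, Or.inr ⟨p2, p4⟩⟩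
  · refine ⟨fun i hi => p1 i (by omega), fun i hi => p3 i (by omega), Or.inl ⟨p3 J (by omega),
      p2, ?_⟩⟩
    rw [show J - 1 + 1 = J by ring, show J - 1 + 2 = J + 1 by ring] at p4
    exact p4

theorem corners {Y : ℤ → ℤ} {a b : ℤ} (h00 : Pat Y) (h10 : Pat (fun x => Y x + dl a x))
    (h01 : Pat (fun x => Y x + dl b x)) (h11 : Pat (fun x => Y x + dl a x + dl b x)) :
    ∃ J : ℤ, CJ J Y ∧ CJ J (fun x => Y x + dl a x) ∧ CJ J (fun x => Y x + dl b x) ∧
      CJ J (fun x => Y x + dl a x + dl b x) ∧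
      (1 ≤ Y J ∨ 1 ≤ Y J + dl a J ∨ 1 ≤ Y J + dl b J ∨ 1 ≤ Y J + dl a J + dl b J) := by
  obtain ⟨b0, h00⟩ := h00
  obtain ⟨b1, h10⟩ := h10
  obtain ⟨b2, h01⟩ := h01
  obtain ⟨b3, h11⟩ := h11
  have h00 : PatAt b0 Y := h00
  have h10 : PatAt b1 (fun x => Y x + dl a x) := h10
  have h01 : PatAt b2 (fun x => Y x + dl b x) := h01
  have h11 : PatAt b3 (fun x => Y x + dl a x + dl b x) := h11
  have n1 := near h00 h10
  have n2 := near h00 h01
  have n3 := near (X := fun x => Y x + dl a x) h10 h11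
  have h11' : PatAt b3 (fun x => (fun x => Y x + dl b x) x + dl a x) := by
    have : (fun x => (fun x => Y x + dl b x) x + dl a x) = fun x => Y x + dl a x + dl b x := by
      funext x; ring
    rw [this]; exact h11
  have n4 := near (X := fun x => Y x + dl b x) h01 h11'
  have o1 : ¬ (b3 = b0 + 2) := by
    intro h
    have e1 : b1 = b0 + 1 := by omega
    have e2 : b2 = b0 + 1 := by omega
    subst h e1 e2
    exact opp1 h00 h10 h01 h11
  have o2 : ¬ (b0 = b3 + 2) := by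
    intro h
    have e1 : b1 = b3 + 1 := by omega
    have e2 : b2 = b3 + 1 := by omega
    subst h e1 e2
    exact opp2 h00 h10 h01 h11
  have o3 : ¬ (b1 = b2 + 2) := by
    intro h
    have e1 : b0 = b2 + 1 := by omega
    subst h e1
    exact opp3 h00 h10 h01
  have o4 : ¬ (b2 = b1 + 2) := by
    intro h
    have e1 : b0 = b1 + 1 := by omega
    subst h e1
    exact opp3 h00 h01 h10
  obtain ⟨J, hJ, hJ0, hJ1, hJ2, hJ3⟩ : ∃ J, (J = b0 ∨ J = b1 ∨ J = b2 ∨ J = b3) ∧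
      (b0 = J ∨ b0 = J - 1) ∧ (b1 = J ∨ b1 = J - 1) ∧ (b2 = J ∨ b2 = J - 1) ∧
      (b3 = J ∨ b3 = J - 1) := by
    refine ⟨max (max b0 b1) (max b2 b3), ?_, ?_, ?_, ?_, ?_⟩ <;> omega
  refine ⟨J, CJ_of h00 hJ0, CJ_of h10 hJ1, CJ_of h01 hJ2, CJ_of h11 hJ3, ?_⟩
  rcases hJ with rfl | rfl | rfl | rfl
  · left; exact h00.2.1
  · right; left; exact h10.2.1
  · right; right; left; exact h01.2.1
  · right; right; right; exact h11.2.1

end P065HP
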