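import Mathlib
import Vale.Agent.P065.HP.Wire

/-!
P065: the halving lines of a set of points are the vertices on the middle level of the dual
arrangement of lines.
-/

namespace P065HP

variable {n : ℕ}

/-- Twice the signed area of the triangle `a b c`. -/
def orient (a b c : ℝ × ℝ) : ℝ := (b.1 - a.1) * (c.2 - a.2) - (c.1 - a.1) * (b.2 - a.2)

/-- Number of halving lines: pairs of points such that exactly `(n - 2) / 2` of the points lie on
either side of the line through the pair. -/
noncomputable def halvingLines (p : Fin n → ℝ × ℝ) : ℕ :=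
  Set.ncard {q : Fin n × Fin n | q.1 < q.2 ∧
    2 * Set.ncard {l : Fin n | 0 < orient (p q.1) (p q.2) (p l)} + 2 = n ∧
    2 * Set.ncard {l : Fin n | orient (p q.1) (p q.2) (p l) < 0} + 2 = n}

/-- The lines dual to the points: `(a, b)` gives the line `y = a x - b`. -/
def dualLines (p : Fin n → ℝ × ℝ) (i : Fin n) (x : ℝ) : ℝ := (p i).1 * x - (p i).2

theorem orient_swap (a b c : ℝ × ℝ) : orient b a c = - orient a b c := by
  unfold orient; ring

theorem dual_cross {p : Fin n → ℝ × ℝ} {i j : Fin n} (h : (p i).1 < (p j).1) :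
    dualLines p i (((p j).2 - (p i).2) / ((p j).1 - (p i).1)) =
      dualLines p j (((p j).2 - (p i).2) / ((p j).1 - (p i).1)) ∧
    (∀ x, x < ((p j).2 - (p i).2) / ((p j).1 - (p i).1) → dualLines p j x < dualLines p i x) ∧
    ∀ x, ((p j).2 - (p i).2) / ((p j).1 - (p i).1) < x → dualLines p i x < dualLines p j x := by
  have h0 : 0 < (p j).1 - (p i).1 := by linarith
  unfold dualLines
  refine ⟨?_, ?_, ?_⟩
  · field_simp
    ring
  · intro x hx
    rw [lt_div_iff₀ h0] at hx
    nlinarith
  · intro x hx
    rw [div_lt_iff₀ h0] at hx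
    nlinarith

/-- Below a crossing. -/
theorem dual_below {p : Fin n → ℝ × ℝ} {i j : Fin n} (h : (p i).1 < (p j).1) {x : ℝ}
    (hx : dualLines p i x = dualLines p j x) (l : Fin n) :
    dualLines p l x < dualLines p i x ↔ 0 < orient (p i) (p j) (p l) := by
  have h0 : 0 < (p j).1 - (p i).1 := by linarith
  unfold dualLines at hx ⊢
  have h1 : ((p j).1 - (p i).1) * x = (p j).2 - (p i).2 := by linarith
  have h2 : orient (p i) (p j) (p l) = ((p j).1 - (p i).1) *
      (((p i).1 * x - (p i).2) - ((p l).1 * x - (p l).2)) := by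
    unfold orient
    rw [← h1]
    ring
  rw [h2]
  constructor
  · intro h3
    exact mul_pos h0 (by linarith)
  · intro h3
    have := (mul_pos_iff_of_pos_left h0).1 h3
    linarith

theorem dual_cross_exists {p : Fin n → ℝ × ℝ} {i j : Fin n} (h : (p i).1 ≠ (p j).1) :
    ∃ x₀, dualLines p i x₀ = dualLines p j x₀ ∧
    (((∀ x, x < x₀ → dualLines p i x < dualLines p j x) ∧
      ∀ x, x₀ < x → dualLines p j x < dualLines p i x) ∨
      ((∀ x, x < x₀ → dualLines p j x < dualLines p i x) ∧
        ∀ x, x₀ < x → dualLines p i x < dualLines p j x)) := by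
  rcases lt_or_gt_of_ne h with h1 | h1
  · obtain ⟨h2, h3, h4⟩ := dual_cross h1
    exact ⟨_, h2, Or.inr ⟨h3, h4⟩⟩
  · obtain ⟨h2, h3, h4⟩ := dual_cross h1
    exact ⟨_, h2.symm, Or.inl ⟨h3, h4⟩⟩

theorem isPseudolineArrangement_dual {p : Fin n → ℝ × ℝ}
    (hx : ∀ i j, i ≠ j → (p i).1 ≠ (p j).1)
    (hp : ∀ i j l, i ≠ j → i ≠ l → j ≠ l → orient (p i) (p j) (p l) ≠ 0) :
    IsPseudolineArrangement (dualLines p) where
  continuous := by
    intro i
    unfold dualLines
    fun_prop
  cross := fun i j hij => dual_cross_exists (hx i j hij)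
  simple := by
    intro i j l x hij hil hjl h h'
    apply hp i j l hij hil hjl
    unfold dualLines at h h'
    unfold orient
    have h1 : ((p j).1 - (p i).1) * x = (p j).2 - (p i).2 := by linarith
    have h2 : ((p l).1 - (p i).1) * x = (p l).2 - (p i).2 := by linarith
    rw [← h1, ← h2]
    ring

theorem ncard_pos_add_neg {p : Fin n → ℝ × ℝ}
    (hp : ∀ i j l, i ≠ j → i ≠ l → j ≠ l → orient (p i) (p j) (p l) ≠ 0) {i j : Fin n}
    (hij : i ≠ j) : Set.ncard {l : Fin n | 0 < orient (p i) (p j) (p l)} +
      Set.ncard {l : Fin n | orient (p i) (p j) (p l) < 0} + 2 = n := by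
  have h1 : orient (p i) (p j) (p i) = 0 := by unfold orient; ring
  have h2 : orient (p i) (p j) (p j) = 0 := by unfold orient; ring
  have h3 : Disjoint {l : Fin n | 0 < orient (p i) (p j) (p l)}
      {l : Fin n | orient (p i) (p j) (p l) < 0} := by
    rw [Set.disjoint_left]
    intro l hl hl'
    exact lt_asymm (show 0 < orient (p i) (p j) (p l) from hl) hl'
  have h4 : Disjoint ({l : Fin n | 0 < orient (p i) (p j) (p l)} ∪
      {l : Fin n | orient (p i) (p j) (p l) < 0}) {i, j} := by
    rw [Set.disjoint_right]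
    rintro l (rfl | rfl) (hl | hl)
    · exact absurd (show 0 < orient (p l) (p j) (p l) from hl) (by rw [h1]; exact lt_irrefl _)
    · exact absurd (show orient (p l) (p j) (p l) < 0 from hl) (by rw [h1]; exact lt_irrefl _)
    · exact absurd (show 0 < orient (p i) (p l) (p l) from hl) (by rw [h2]; exact lt_irrefl _)
    · exact absurd (show orient (p i) (p l) (p l) < 0 from hl) (by rw [h2]; exact lt_irrefl _)
  have h5 : (({l : Fin n | 0 < orient (p i) (p j) (p l)} ∪
      {l : Fin n | orient (p i) (p j) (p l) < 0}) ∪ {i, j}) = Set.univ := by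
    ext l
    simp only [Set.mem_union, Set.mem_univ, iff_true]
    by_cases hl : l = i
    · exact Or.inr (Or.inl hl)
    by_cases hl' : l = j
    · exact Or.inr (Or.inr hl')
    left
    have := hp i j l hij (Ne.symm hl) (Ne.symm hl')
    rcases lt_or_gt_of_ne this with h | h
    · exact Or.inr h
    · exact Or.inl h
  have h6 := congrArg Set.ncard h5
  rw [Set.ncard_union_eq h4, Set.ncard_union_eq h3, Set.ncard_pair hij, Set.ncard_univ,
    Nat.card_eq_fintype_card, Fintype.card_fin] at h6
  exact h6

/-- For lines, the vertices on the middle level are the halving lines of the dual points. -/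
theorem levelVertices_dual {k : ℕ} {p : Fin (2 * k) → ℝ × ℝ}
    (hx : ∀ i j, i ≠ j → (p i).1 ≠ (p j).1)
    (hp : ∀ i j l, i ≠ j → i ≠ l → j ≠ l → orient (p i) (p j) (p l) ≠ 0) :
    levelVertices (dualLines p) k = halvingLines p := by
  unfold levelVertices halvingLines
  congr 1
  ext ⟨i, j⟩
  simp only [Set.mem_ofPred_eq]
  have key : ∀ i j : Fin (2 * k), (p i).1 < (p j).1 → ∀ x, dualLines p i x = dualLines p j x →
      Set.ncard {l | dualLines p l x < dualLines p i x} =
        Set.ncard {l | 0 < orient (p i) (p j) (p l)} := by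
    intro i j h x hxx
    congr 1
    ext l
    exact dual_below h hxx l
  constructor
  · rintro ⟨hij, x, h1, h2⟩
    refine ⟨hij, ?_⟩
    have h3 := ncard_pos_add_neg hp hij.ne
    rcases lt_or_gt_of_ne (hx i j hij.ne) with h | h
    · rw [key i j h x h1] at h2
      omega
    · rw [h1, key j i h x h1.symm] at h2
      have h4 : {l | 0 < orient (p j) (p i) (p l)} = {l | orient (p i) (p j) (p l) < 0} := by
        ext l
        simp only [Set.mem_ofPred_eq]
        rw [orient_swap]
        constructor <;> intro h <;> linarith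
      rw [h4] at h2
      omega
  · rintro ⟨hij, h1, h2⟩
    refine ⟨hij, ?_⟩
    obtain ⟨x, hx1, _⟩ := dual_cross_exists (hx i j hij.ne)
    refine ⟨x, hx1, ?_⟩
    rcases lt_or_gt_of_ne (hx i j hij.ne) with h | h
    · rw [key i j h x hx1]
      omega
    · rw [hx1, key j i h x hx1.symm]
      have h4 : {l | 0 < orient (p j) (p i) (p l)} = {l | orient (p i) (p j) (p l) < 0} := by
        ext l
        simp only [Set.mem_ofPred_eq]
        rw [orient_swap]
        constructor <;> intro h <;> linarith
      rw [h4]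
      omega

end P065HP
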