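import Mathlib
import Vale.Agent.P065.HP.Arith
import Vale.Agent.P065.HP.Lines

/-!
P065: the final statement from the existence of long chains.
-/

namespace P065HP

theorem logb_256 : Real.logb ((256 : ℕ) : ℝ) 2 = 1 / 8 := by
  have h : (2 : ℝ) = ((256 : ℕ) : ℝ) ^ ((1 : ℝ) / 8) := by
    have h1 : ((256 : ℕ) : ℝ) = 2 ^ (8 : ℝ) := by norm_num
    rw [h1, ← Real.rpow_mul (by norm_num)]
    norm_num
  conv_lhs => rw [h]
  exact Real.logb_rpow (by norm_num) (by norm_num)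

/-- The final statement. -/
theorem final_of_core (core : ∃ C : ℕ, 1 ≤ C ∧ ∀ l : ℕ, ∃ N k T : ℕ, N ≤ C * 256 ^ l ∧
    512 ^ l ≤ T ∧ Nonempty (SepChain N k T)) :
    (∀ (k : ℕ) (p : Fin (2 * k) → ℝ × ℝ), (∀ i j, i ≠ j → (p i).1 ≠ (p j).1) →
      (∀ i j l, i ≠ j → i ≠ l → j ≠ l → orient (p i) (p j) (p l) ≠ 0) →
      IsPseudolineArrangement (dualLines p) ∧ levelVertices (dualLines p) k = halvingLines p) ∧
    ∃ c : ℝ, 0 < c ∧ ∀ n k : ℕ, 1 ≤ k → 2 * k ≤ n →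
      ∃ f : Fin n → ℝ → ℝ, IsPseudolineArrangement f ∧
        c * n * (k : ℝ) ^ ((1 : ℝ) / 8) ≤ levelVertices f k := by
  refine ⟨fun k p hx hp => ⟨isPseudolineArrangement_dual hx hp, levelVertices_dual hx hp⟩, ?_⟩
  obtain ⟨C, hC, hcore⟩ := core
  have h := all_levels 256 C (by norm_num) hC (by
    intro l
    obtain ⟨N, k, T, h1, h2, h3⟩ := hcore l
    exact ⟨N, k, T, h1, by simpa using h2, h3⟩)
  rw [logb_256] at h
  exact h

end P065HP
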