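import Vale.Agent.P065.HP.Tile

/-!
# The refined word
-/

namespace P065HP

/-- State of the refinement: `false` if the last change of the coarse letter was an increase
(or there was none), `true` if it was a decrease. -/
def sg (f : ℕ → ℤ) : ℕ → Bool
  | 0 => false
  | n + 1 => nx (sg f n) (f (n + 1) - f n)

/-- The tile replacing the `i`-th coarse letter. -/
def tile (f : ℕ → ℤ) (i : ℕ) : List ℕ := tl (sg f i) (f (i + 1) - f i)

/-- The refined word. -/
def fine (f : ℕ → ℤ) (n : ℕ) : ℤ := 2 * f (n / 512) + ((tile f (n / 512)).getD (n % 512) 0 : ℕ)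

theorem fine_block (f : ℕ → ℤ) (i r : ℕ) (hr : r < 512) :
    fine f (512 * i + r) = ((tile f i).getD r 0 : ℕ) + 2 * f i := by
  unfold fine
  have h1 : (512 * i + r) / 512 = i := by omega
  have h2 : (512 * i + r) % 512 = r := by omega
  rw [h1, h2]; ring

/-- The two-scale operator (Chaikin mask). -/
def Mx (y : ℤ → ℤ) (x : ℤ) : ℤ :=
  if x % 2 = 0 then y (x / 2) + 3 * y (x / 2 - 1) else 3 * y (x / 2) + y (x / 2 - 1)

theorem Mx_even (y : ℤ → ℤ) (J : ℤ) : Mx y (2 * J) = y J + 3 * y (J - 1) := by
  unfold Mx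
  rw [if_pos (by omega), show 2 * J / 2 = J by omega]

theorem Mx_odd (y : ℤ → ℤ) (J : ℤ) : Mx y (2 * J + 1) = 3 * y J + y (J - 1) := by
  unfold Mx
  rw [if_neg (by omega), show (2 * J + 1) / 2 = J by omega]

theorem dl_same (a : ℤ) : dl a a = 1 := by simp [dl]

theorem dl_next (a : ℤ) : dl a (a + 1) = -1 := by simp [dl]

theorem dl_other (a x : ℤ) (h1 : x ≠ a) (h2 : x ≠ a + 1) : dl a x = 0 := by
  unfold dl; rw [if_neg h1, if_neg h2]; ring

theorem bs_other (x : ℤ) (h : x < 0 ∨ 5 < x) : bs x = 0 := by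
  unfold bs
  rw [if_neg (by omega), if_neg (by omega), if_neg (by omega), if_neg (by omega),
    if_neg (by omega), if_neg (by omega)]

theorem Mx_dl (a x : ℤ) : Mx (dl a) x = bs (x - 2 * a) := by
  rcases Int.even_or_odd' x with ⟨J, rfl | rfl⟩
  · rw [Mx_even]
    by_cases h0 : J = a
    · subst h0
      rw [dl_same, dl_other J (J - 1) (by omega) (by omega), sub_self]; rfl
    by_cases h1 : J = a + 1
    · subst h1
      rw [dl_next, show a + 1 - 1 = a by ring, dl_same, show 2 * (a + 1) - 2 * a = 2 by ring]; rfl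
    by_cases h2 : J = a + 2
    · subst h2
      rw [dl_other a (a + 2) (by omega) (by omega), show a + 2 - 1 = a + 1 by ring, dl_next,
        show 2 * (a + 2) - 2 * a = 4 by ring]; rfl
    rw [dl_other a J h0 h1, dl_other a (J - 1) (by omega) (by omega), bs_other _ (by omega)]; ring
  · rw [Mx_odd]
    by_cases h0 : J = a
    · subst h0
      rw [dl_same, dl_other J (J - 1) (by omega) (by omega), show 2 * J + 1 - 2 * J = 1 by ring]
      rfl
    by_cases h1 : J = a + 1
    · subst h1
      rw [dl_next, show a + 1 - 1 = a by ring, dl_same,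
        show 2 * (a + 1) + 1 - 2 * a = 3 by ring]; rfl
    by_cases h2 : J = a + 2
    · subst h2
      rw [dl_other a (a + 2) (by omega) (by omega), show a + 2 - 1 = a + 1 by ring, dl_next,
        show 2 * (a + 2) + 1 - 2 * a = 5 by ring]; rfl
    rw [dl_other a J h0 h1, dl_other a (J - 1) (by omega) (by omega), bs_other _ (by omega)]; ring

theorem Mx_add (y z : ℤ → ℤ) (x : ℤ) : Mx (fun i => y i + z i) x = Mx y x + Mx z x := by
  unfold Mx; split_ifs <;> ring

theorem Mx_sub (y z : ℤ → ℤ) (x : ℤ) : Mx (fun i => y i - z i) x = Mx y x - Mx z x := by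
  unfold Mx; split_ifs <;> ring

theorem Mx_zero (x : ℤ) : Mx (fun _ => 0) x = 0 := by
  unfold Mx; split_ifs <;> ring

theorem St_init (f : ℕ → ℤ) (x : ℤ) : St f 0 x = 0 := by simp [St]

theorem St_step (f : ℕ → ℤ) (n : ℕ) (x : ℤ) : St f (n + 1) x = St f n x + dl (f n) x := by
  simp [St, Finset.sum_range_succ]

theorem tile_length (f : ℕ → ℤ) (i : ℕ) : (tile f i).length = 512 := tl_length _ _

theorem St_fine_add (f : ℕ → ℤ) (i r : ℕ) (hr : r ≤ 512) (x : ℤ) :
    St (fine f) (512 * i + r) x =
      St (fine f) (512 * i) x + vec ((tile f i).take r) (x - 2 * f i) := by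
  have h := vec_slice (tile f i) 0 r (by rw [tile_length]; omega) (x - 2 * f i)
  rw [List.drop_zero] at h
  rw [h, St, St, Finset.sum_range_add]
  congr 1
  refine Finset.sum_congr rfl (fun p hp => ?_)
  rw [Finset.mem_range] at hp
  rw [fine_block f i p (by omega), dl_shift, zero_add]

theorem St_fine_tile (f : ℕ → ℤ) (i : ℕ) (x : ℤ) :
    St (fine f) (512 * i) x = 32 * Mx (St f i) x := by
  induction i with
  | zero =>
    rw [Nat.mul_zero, St_init]
    have : St f 0 = fun _ => 0 := funext (St_init f)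
    rw [this, Mx_zero]; ring
  | succ i ih =>
    rw [show 512 * (i + 1) = 512 * i + 512 by ring, St_fine_add f i 512 le_rfl, ih,
      List.take_of_length_le (by rw [tile_length])]
    unfold tile
    rw [tl_full, ← Mx_dl]
    have : St f (i + 1) = fun x => St f i x + dl (f i) x := funext (St_step f i)
    rw [this, Mx_add]; ring

theorem St_fine (f : ℕ → ℤ) (i r : ℕ) (hr : r ≤ 512) (x : ℤ) :
    St (fine f) (512 * i + r) x =
      32 * Mx (St f i) x + vec ((tile f i).take r) (x - 2 * f i) := by
  rw [St_fine_add f i r hr, St_fine_tile]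

/-- Consecutive letters of a list differ by at most one. -/
def stepOK : List ℕ → Bool
  | a :: b :: l => Nat.ble a (b + 1) && Nat.ble b (a + 1) && stepOK (b :: l)
  | _ => true

theorem stepOK_sound (l : List ℕ) (h : stepOK l = true) (n : ℕ) (hn : n + 1 < l.length) :
    l.getD n 0 ≤ l.getD (n + 1) 0 + 1 ∧ l.getD (n + 1) 0 ≤ l.getD n 0 + 1 := by
  induction l generalizing n with
  | nil => simp at hn
  | cons a l ih =>
    cases l with
    | nil => simp at hn
    | cons b l =>
      simp only [stepOK, Bool.and_eq_true, Nat.ble_eq] at h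
      cases n with
      | zero => simpa using h.1
      | succ n => simpa using ih h.2 n (by simpa using hn)

set_option maxRecDepth 100000 in
theorem chk4 : (stepOK (tl false 0 ++ [1]) && stepOK (tl true 0 ++ [3]) &&
  stepOK (tl false 1 ++ [3]) && stepOK (tl true 1 ++ [3]) &&
  stepOK ((tl false (-1)).map (· + 2) ++ [3]) && stepOK ((tl true (-1)).map (· + 2) ++ [3])) = true := by
  decide +kernel

end P065HP
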