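import Vale.Agent.P065.HP.Core
import Vale.Agent.P065.HP.Corner

/-!
# Windows of the refined word that contain a full coarse letter
-/

namespace P065HP

/-- Unit vector. -/
def ep (c i : ℤ) : ℤ := if i = c then 1 else 0

theorem dl_ep (a i : ℤ) : dl a i = ep a i - ep (a + 1) i := rfl

/-- The mask of the two-scale operator. -/
def msk (y : ℤ) : ℤ := if y = 0 then 1 else if y = 1 then 3 else if y = 2 then 3 else
  if y = 3 then 1 else 0

theorem Mx_ep (a x : ℤ) : Mx (ep a) x = msk (x - 2 * a) := by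
  unfold msk ep
  rcases Int.even_or_odd' x with ⟨J, rfl | rfl⟩
  · rw [Mx_even]
    split_ifs <;> omega
  · rw [Mx_odd]
    split_ifs <;> omega

theorem PF.lower {r : ℤ} {X : ℤ → ℤ} (h : PF r X) (h0 : 0 ≤ r) (h1 : r ≤ 512) (y : ℤ) :
    -32 * msk (y - 2) ≤ X y := by
  obtain ⟨o, p0, p1, p4, p5, e0, e1, e2, e3, e4, e5⟩ := h
  unfold msk
  by_cases c0 : y = 0
  · subst c0; norm_num; exact p0.1
  by_cases c1 : y = 1
  · subst c1; norm_num; exact p1.1
  by_cases c2 : y = 2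
  · subst c2; norm_num; omega
  by_cases c3 : y = 3
  · subst c3; norm_num; omega
  by_cases c4 : y = 4
  · subst c4; norm_num; omega
  by_cases c5 : y = 5
  · subst c5; norm_num; omega
  rw [o y (by omega)]
  split_ifs <;> omega

theorem PF.upper {r : ℤ} {X : ℤ → ℤ} (h : PF r X) (h0 : 0 ≤ r) (h1 : r ≤ 512) (y : ℤ) :
    X y ≤ 32 * msk y := by
  obtain ⟨o, p0, p1, p4, p5, e0, e1, e2, e3, e4, e5⟩ := h
  unfold msk
  by_cases c0 : y = 0
  · subst c0; norm_num; omega
  by_cases c1 : y = 1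
  · subst c1; norm_num; omega
  by_cases c2 : y = 2
  · subst c2; norm_num; omega
  by_cases c3 : y = 3
  · subst c3; norm_num; omega
  by_cases c4 : y = 4
  · subst c4; norm_num; omega
  by_cases c5 : y = 5
  · subst c5; norm_num; omega
  rw [o y (by omega)]
  split_ifs <;> omega

theorem PF.err {r : ℤ} {X : ℤ → ℤ} (h : PF r X) (y : ℤ) :
    -112 ≤ 16 * X y - r * bs y ∧ 16 * X y - r * bs y ≤ 112 := by
  obtain ⟨o, p0, p1, p4, p5, e0, e1, e2, e3, e4, e5⟩ := h
  unfold bs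
  by_cases c0 : y = 0
  · subst c0; norm_num; omega
  by_cases c1 : y = 1
  · subst c1; norm_num; omega
  by_cases c2 : y = 2
  · subst c2; norm_num; omega
  by_cases c3 : y = 3
  · subst c3; norm_num; omega
  by_cases c4 : y = 4
  · subst c4; norm_num; omega
  by_cases c5 : y = 5
  · subst c5; norm_num; omega
  rw [o y (by omega), if_neg c0, if_neg c1, if_neg c2, if_neg c3, if_neg c4, if_neg c5]
  omega

theorem low_site (Y : ℤ → ℤ) (a b i : ℤ) (h0 : 0 ≤ Y i) (h1 : 0 ≤ Y i + dl a i)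
    (h2 : 0 ≤ Y i + dl b i) (h3 : 0 ≤ Y i + dl a i + dl b i) :
    0 ≤ Y i - ep (a + 1) i - ep (b + 1) i := by
  unfold dl at *
  unfold ep
  split_ifs at * <;> omega

theorem up_site (Y : ℤ → ℤ) (a b i : ℤ) (h0 : Y i ≤ 0) (h1 : Y i + dl a i ≤ 0)
    (h2 : Y i + dl b i ≤ 0) (h3 : Y i + dl a i + dl b i ≤ 0) :
    Y i + ep a i + ep b i ≤ 0 := by
  unfold dl at *
  unfold ep
  split_ifs at * <;> omega

theorem eff_dl (a J : ℤ) : Eff (dl a (J - 1)) (dl a J) (dl a (J + 1)) (dl a (J + 2)) := by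
  unfold Eff dl
  by_cases c0 : a = J - 2
  · subst c0; left
    refine ⟨?_, ?_, ?_, ?_⟩ <;> (split_ifs <;> omega)
  by_cases c1 : a = J - 1
  · subst c1; right; left
    refine ⟨?_, ?_, ?_, ?_⟩ <;> (split_ifs <;> omega)
  by_cases c2 : a = J
  · subst c2; right; right; left
    refine ⟨?_, ?_, ?_, ?_⟩ <;> (split_ifs <;> omega)
  by_cases c3 : a = J + 1
  · subst c3; right; right; right; left
    refine ⟨?_, ?_, ?_, ?_⟩ <;> (split_ifs <;> omega)
  by_cases c4 : a = J + 2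
  · subst c4; right; right; right; right; left
    refine ⟨?_, ?_, ?_, ?_⟩ <;> (split_ifs <;> omega)
  right; right; right; right; right
  refine ⟨?_, ?_, ?_, ?_⟩ <;> (split_ifs <;> omega)

theorem Cor_of {X : ℤ → ℤ} {J : ℤ} (h : CJ J X) : Cor (X (J - 1)) (X J) (X (J + 1)) (X (J + 2)) := by
  obtain ⟨h1, h2, h3⟩ := h
  exact ⟨h1 _ (by omega), h2 _ (by omega), h2 _ (by omega), h3⟩

theorem long_pat {Y S P : ℤ → ℤ} {a b k q : ℤ} (hS : PF k S) (hP : PF q P)
    (hk0 : 0 ≤ k) (hk1 : k ≤ 512) (hq0 : 0 ≤ q) (hq1 : q ≤ 512)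
    (h00 : Pat Y) (h10 : Pat (fun x => Y x + dl a x))
    (h01 : Pat (fun x => Y x + dl b x)) (h11 : Pat (fun x => Y x + dl a x + dl b x)) :
    Pat (fun x => 32 * Mx Y x + S (x - 2 * a) + P (x - 2 * b)) := by
  obtain ⟨J, c00, c10, c01, c11, hpos⟩ := corners h00 h10 h01 h11
  obtain ⟨V, hV⟩ : ∃ V : ℤ → ℤ, V = fun x => 32 * Mx Y x + S (x - 2 * a) + P (x - 2 * b) :=
    ⟨_, rfl⟩
  rw [← hV]
  have hVx : ∀ x, V x = 32 * Mx Y x + S (x - 2 * a) + P (x - 2 * b) := fun x => by rw [hV]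
  have M : Mid (dl a (J - 1)) (dl a J) (dl a (J + 1)) (dl a (J + 2))
      (dl b (J - 1)) (dl b J) (dl b (J + 1)) (dl b (J + 2))
      (Y (J - 1)) (Y J) (Y (J + 1)) (Y (J + 2)) k q :=
    ⟨eff_dl a J, eff_dl b J, Cor_of c00, Cor_of c10, Cor_of c01, Cor_of c11, hpos,
      hk0, hk1, hq0, hq1⟩
  -- sites to the left
  have hlow : ∀ x, x < 2 * J → 0 ≤ V x := by
    intro x hx
    have e1 := hS.lower hk0 hk1 (x - 2 * a)
    have e2 := hP.lower hq0 hq1 (x - 2 * b)
    rw [show x - 2 * a - 2 = x - 2 * (a + 1) by ring, ← Mx_ep] at e1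
    rw [show x - 2 * b - 2 = x - 2 * (b + 1) by ring, ← Mx_ep] at e2
    have site : ∀ i, i < J → 0 ≤ Y i - ep (a + 1) i - ep (b + 1) i := fun i hi =>
      low_site Y a b i (c00.1 i hi) (c10.1 i hi) (c01.1 i hi) (c11.1 i hi)
    rw [hVx]
    rcases Int.even_or_odd' x with ⟨m, rfl | rfl⟩
    · rw [Mx_even] at e1 e2 ⊢
      have s1 := site m (by omega)
      have s2 := site (m - 1) (by omega)
      omega
    · rw [Mx_odd] at e1 e2 ⊢
      have s1 := site m (by omega)
      have s2 := site (m - 1) (by omega)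
      omega
  have hup : ∀ x, 2 * J + 3 < x → V x ≤ 0 := by
    intro x hx
    have e1 := hS.upper hk0 hk1 (x - 2 * a)
    have e2 := hP.upper hq0 hq1 (x - 2 * b)
    rw [← Mx_ep] at e1 e2
    have site : ∀ i, J < i → Y i + ep a i + ep b i ≤ 0 := fun i hi =>
      up_site Y a b i (c00.2.1 i hi) (c10.2.1 i hi) (c01.2.1 i hi) (c11.2.1 i hi)
    rw [hVx]
    rcases Int.even_or_odd' x with ⟨m, rfl | rfl⟩
    · rw [Mx_even] at e1 e2 ⊢
      have s1 := site m (by omega)
      have s2 := site (m - 1) (by omega)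
      omega
    · rw [Mx_odd] at e1 e2 ⊢
      have s1 := site m (by omega)
      have s2 := site (m - 1) (by omega)
      omega
  -- the middle sites
  have mid : ∀ x, ∃ D, (-224 ≤ D ∧ D ≤ 224) ∧
      16 * V x = 512 * Mx Y x + k * Mx (dl a) x + q * Mx (dl b) x + D := by
    intro x
    have e1 := hS.err (x - 2 * a)
    have e2 := hP.err (x - 2 * b)
    refine ⟨16 * V x - (512 * Mx Y x + k * Mx (dl a) x + q * Mx (dl b) x), ?_, by ring⟩
    rw [hVx, Mx_dl, Mx_dl]
    constructor <;> linarith [e1.1, e1.2, e2.1, e2.2]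
  obtain ⟨D0, d0, f0⟩ := mid (2 * J)
  obtain ⟨D1, d1, f1⟩ := mid (2 * J + 1)
  obtain ⟨D2, d2, f2⟩ := mid (2 * (J + 1))
  obtain ⟨D3, d3, f3⟩ := mid (2 * (J + 1) + 1)
  obtain ⟨D4, d4, f4⟩ := mid (2 * (J + 2))
  obtain ⟨D5, d5, f5⟩ := mid (2 * (J + 2) + 1)
  rw [Mx_even, Mx_even, Mx_even] at f0 f2 f4
  rw [Mx_odd, Mx_odd, Mx_odd] at f1 f3 f5
  rw [show J + 1 - 1 = J by ring] at f2 f3
  rw [show J + 2 - 1 = J + 1 by ring] at f4 f5
  have g0 := core1 M D0 d0
  have g2a := core2a M D1 D2 d1 d2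
  have g2b := core2b M D1 D3 d1 d3
  have g3 := core3 M D2 D3 d2 d3
  have g4 := core4 M D2 D3 D4 d2 d3 d4
  have g5 := core5 M D3 D4 D5 d3 d4 d5
  have f0' : 16 * V (2 * J) = 512 * (3 * Y (J - 1) + Y J) + k * (3 * dl a (J - 1) + dl a J) +
      q * (3 * dl b (J - 1) + dl b J) + D0 := by rw [f0]; ring
  have f1' : 16 * V (2 * J + 1) = 512 * (Y (J - 1) + 3 * Y J) + k * (dl a (J - 1) + 3 * dl a J) +
      q * (dl b (J - 1) + 3 * dl b J) + D1 := by rw [f1]; ring
  have f2' : 16 * V (2 * (J + 1)) = 512 * (3 * Y J + Y (J + 1)) +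
      k * (3 * dl a J + dl a (J + 1)) + q * (3 * dl b J + dl b (J + 1)) + D2 := by rw [f2]; ring
  have f3' : 16 * V (2 * (J + 1) + 1) = 512 * (Y J + 3 * Y (J + 1)) +
      k * (dl a J + 3 * dl a (J + 1)) + q * (dl b J + 3 * dl b (J + 1)) + D3 := by rw [f3]; ring
  have f4' : 16 * V (2 * (J + 2)) = 512 * (3 * Y (J + 1) + Y (J + 2)) +
      k * (3 * dl a (J + 1) + dl a (J + 2)) + q * (3 * dl b (J + 1) + dl b (J + 2)) + D4 := by
    rw [f4]; ring
  have f5' : 16 * V (2 * (J + 2) + 1) = 512 * (Y (J + 1) + 3 * Y (J + 2)) +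
      k * (dl a (J + 1) + 3 * dl a (J + 2)) + q * (dl b (J + 1) + 3 * dl b (J + 2)) + D5 := by
    rw [f5]; ring
  rw [← f0'] at g0
  rw [← f1', ← f2'] at g2a
  rw [← f1', ← f3'] at g2b
  rw [← f2', ← f3'] at g3
  rw [← f2', ← f3', ← f4'] at g4
  rw [← f3', ← f4', ← f5'] at g5
  have e2 : 2 * (J + 1) = 2 * J + 2 := by ring
  have e3 : 2 * (J + 1) + 1 = 2 * J + 3 := by ring
  have e4 : 2 * (J + 2) = 2 * J + 4 := by ring
  have e5 : 2 * (J + 2) + 1 = 2 * J + 5 := by ring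
  rw [e3] at g2b g3 g4 g5
  rw [e5] at g5
  rw [e2] at g2a g3 g4
  rw [e4] at g4 g5
  have u4 := hup (2 * J + 4) (by omega)
  have u5 := hup (2 * J + 5) (by omega)
  clear f0 f1 f2 f3 f4 f5 f0' f1' f2' f3' f4' f5' d0 d1 d2 d3 d4 d5 hV hVx mid
  by_cases t1 : V (2 * J + 1) ≤ 0
  · have w2 := g2a (by omega)
    have w3 := g2b (by omega)
    refine ⟨2 * J, ?_, by omega, ?_, ?_⟩
    · intro x hx
      rcases lt_or_eq_of_le hx with h | rfl
      · exact hlow x h
      · omega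
    · intro x hx
      by_cases q1 : x = 2 * J + 1
      · subst q1; omega
      by_cases q2 : x = 2 * J + 2
      · subst q2; omega
      by_cases q3 : x = 2 * J + 3
      · subst q3; omega
      exact hup x (by omega)
    · omega
  by_cases t2 : V (2 * J + 2) ≤ 0
  · have w3 := g3 (by omega)
    refine ⟨2 * J + 1, ?_, by omega, ?_, ?_⟩
    · intro x hx
      by_cases q1 : x = 2 * J + 1
      · subst q1; omega
      by_cases q0 : x = 2 * J
      · subst q0; omega
      exact hlow x (by omega)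
    · intro x hx
      by_cases q2 : x = 2 * J + 2
      · subst q2; omega
      by_cases q3 : x = 2 * J + 3
      · subst q3; omega
      exact hup x (by omega)
    · rw [show 2 * J + 1 + 1 = 2 * J + 2 by ring, show 2 * J + 1 + 2 = 2 * J + 3 by ring]
      omega
  by_cases t3 : V (2 * J + 3) ≤ 0
  · refine ⟨2 * J + 2, ?_, by omega, ?_, ?_⟩
    · intro x hx
      by_cases q2 : x = 2 * J + 2
      · subst q2; omega
      by_cases q1 : x = 2 * J + 1
      · subst q1; omega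
      by_cases q0 : x = 2 * J
      · subst q0; omega
      exact hlow x (by omega)
    · intro x hx
      by_cases q3 : x = 2 * J + 3
      · subst q3; omega
      exact hup x (by omega)
    · rw [show 2 * J + 2 + 1 = 2 * J + 3 by ring, show 2 * J + 2 + 2 = 2 * J + 4 by ring]
      by_cases t4 : V (2 * J + 3) = 0
      · have w4 := g4 (by omega) (by omega)
        omega
      · omega
  · have w5 := g5 (by omega)
    refine ⟨2 * J + 3, ?_, by omega, ?_, ?_⟩
    · intro x hx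
      by_cases q3 : x = 2 * J + 3
      · subst q3; omega
      by_cases q2 : x = 2 * J + 2
      · subst q2; omega
      by_cases q1 : x = 2 * J + 1
      · subst q1; omega
      by_cases q0 : x = 2 * J
      · subst q0; omega
      exact hlow x (by omega)
    · intro x hx
      exact hup x (by omega)
    · rw [show 2 * J + 3 + 1 = 2 * J + 4 by ring, show 2 * J + 3 + 2 = 2 * J + 5 by ring]
      omega

end P065HP
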