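import Mathlib.Tactic
import Mathlib.Algebra.BigOperators.Group.Finset.Basic

/-!
# Words of column hops (pseudoline version of the halving problem)

A letter `b : ℤ` is a hop of one point from column `b + 1` to column `b`.
`St f n i` is the change of the number of points of column `i` below the curve after the
first `n` letters of `f`.
-/

namespace P065HP

/-- The effect of the letter `b` on column `i`. -/
def dl (b i : ℤ) : ℤ := (if i = b then 1 else 0) - (if i = b + 1 then 1 else 0)

/-- State of the columns after `n` letters of `f`. -/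
def St (f : ℕ → ℤ) (n : ℕ) (i : ℤ) : ℤ := ∑ m ∈ Finset.range n, dl (f m) i

/-- Sign pattern `(+,-)` with at most one zero between the last positive and the first
negative entry. -/
def Pat (X : ℤ → ℤ) : Prop :=
  ∃ b : ℤ, (∀ i, i ≤ b → 0 ≤ X i) ∧ 0 < X b ∧ (∀ i, b < i → X i ≤ 0) ∧
    X (b + 1) + X (b + 2) < 0

/-- A good word of length `T`: all windows have the sign pattern `Pat`; consecutive letters
differ by at most one. -/
def Good (T : ℕ) (f : ℕ → ℤ) : Prop :=
  (∀ s t, s < t → t ≤ T → Pat (fun i => St f t i - St f s i)) ∧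
  (∀ n, -1 ≤ f (n + 1) - f n ∧ f (n + 1) - f n ≤ 1)

/-- All columns of the word lie in `[0, L)` and the column `i` moves inside `[lo i, hi i]`. -/
def Boxed (T L : ℕ) (f : ℕ → ℤ) (lo hi : ℤ → ℤ) : Prop :=
  (∀ n, 0 ≤ f n ∧ f n + 1 < L) ∧
  (∀ n, n ≤ T → ∀ i, 0 ≤ i → i < L → lo i ≤ St f n i ∧ St f n i ≤ hi i)

end P065HP
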