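import Mathlib
import Vale.Agent.P065.HP.Word
import Vale.Agent.P065.HP.Pad

/-!
P065: a good word of column hops gives a chain of strongly separated sets.
-/

namespace P065HP

theorem sum_dl (L : ℕ) {b : ℤ} (h0 : 0 ≤ b) (h1 : b + 1 < L) :
    ∑ i ∈ Finset.range L, dl b (i : ℤ) = 0 := by
  obtain ⟨c, rfl⟩ := Int.eq_ofNat_of_zero_le h0
  have hc : c + 1 < L := by exact_mod_cast h1
  unfold dl
  rw [Finset.sum_sub_distrib]
  have e1 : ∑ i ∈ Finset.range L, (if ((i : ℕ) : ℤ) = (c : ℤ) then (1 : ℤ) else 0) = 1 := by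
    rw [Finset.sum_eq_single c]
    · simp
    · intro i _ hi
      rw [if_neg]
      exact_mod_cast hi
    · intro h
      exact absurd (Finset.mem_range.2 (by omega)) h
  have e2 : ∑ i ∈ Finset.range L, (if ((i : ℕ) : ℤ) = (c : ℤ) + 1 then (1 : ℤ) else 0) = 1 := by
    rw [Finset.sum_eq_single (c + 1)]
    · simp
    · intro i _ hi
      rw [if_neg]
      intro h
      apply hi
      exact_mod_cast h
    · intro h
      exact absurd (Finset.mem_range.2 hc) h
  rw [e1, e2]
  ring

theorem sum_St (L : ℕ) (f : ℕ → ℤ) (h : ∀ n, 0 ≤ f n ∧ f n + 1 < L) (t : ℕ) :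
    ∑ i ∈ Finset.range L, St f t (i : ℤ) = 0 := by
  unfold St
  rw [Finset.sum_comm]
  exact Finset.sum_eq_zero fun m _ => sum_dl L (h m).1 (h m).2

theorem St_succ (f : ℕ → ℤ) (n : ℕ) (i : ℤ) : St f (n + 1) i = St f n i + dl (f n) i := by
  unfold St
  rw [Finset.sum_range_succ]

section

variable (L : ℕ) (f : ℕ → ℤ) (lo hi : ℤ → ℤ)

/-- Number of points of the column `i`. -/
def colW (i : ℕ) : ℕ := (hi i - lo i).toNat

/-- First label of the column `i`. -/
def colO (m : ℕ) : ℕ := ∑ i ∈ Finset.range m, colW lo hi i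

/-- Number of points of the column `i` below the curve. -/
def colU (t i : ℕ) : ℕ := (St f t i - lo i).toNat

/-- Labels of the points above the curve. -/
def aboveS (t : ℕ) : Finset ℕ :=
  (Finset.range L).biUnion fun i =>
    Finset.Ico (colO lo hi i + colU f lo t i) (colO lo hi (i + 1))

variable {L f lo hi}

theorem colO_succ (i : ℕ) : colO lo hi (i + 1) = colO lo hi i + colW lo hi i := by
  unfold colO
  rw [Finset.sum_range_succ]

theorem colO_mono {i j : ℕ} (h : i ≤ j) : colO lo hi i ≤ colO lo hi j := by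
  induction j, h using Nat.le_induction with
  | base => exact le_rfl
  | succ m _ ih => exact ih.trans (by rw [colO_succ]; omega)

theorem colU_facts {T : ℕ} (hb : Boxed T L f lo hi) {t i : ℕ} (ht : t ≤ T) (hi' : i < L) :
    (colU f lo t i : ℤ) = St f t i - lo i ∧ colU f lo t i ≤ colW lo hi i := by
  have h := hb.2 t ht i (Nat.zero_le _) hi'
  unfold colU colW
  omega

theorem mem_aboveS {t x : ℕ} : x ∈ aboveS L f lo hi t ↔
    ∃ i, i < L ∧ colO lo hi i + colU f lo t i ≤ x ∧ x < colO lo hi (i + 1) := by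
  simp [aboveS]

/-- The column of a label is unique. -/
theorem col_unique {i j x : ℕ} (h1 : colO lo hi i ≤ x) (h2 : x < colO lo hi (i + 1))
    (h3 : colO lo hi j ≤ x) (h4 : x < colO lo hi (j + 1)) : i = j := by
  rcases lt_trichotomy i j with h | h | h
  · have := colO_mono (lo := lo) (hi := hi) (show i + 1 ≤ j from h)
    omega
  · exact h
  · have := colO_mono (lo := lo) (hi := hi) (show j + 1 ≤ i from h)
    omega

theorem card_aboveS {T : ℕ} (hb : Boxed T L f lo hi) {t : ℕ} (ht : t ≤ T) :
    ((aboveS L f lo hi t).card : ℤ) = colO lo hi L + ∑ i ∈ Finset.range L, lo (i : ℤ) := by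
  unfold aboveS
  rw [Finset.card_biUnion]
  · have e1 : ∀ i ∈ Finset.range L,
        (((Finset.Ico (colO lo hi i + colU f lo t i) (colO lo hi (i + 1))).card : ℕ) : ℤ) =
          colW lo hi i - (St f t i - lo i) := by
      intro i hiL
      obtain ⟨h1, h2⟩ := colU_facts hb ht (Finset.mem_range.1 hiL)
      rw [Nat.card_Ico, colO_succ]
      omega
    rw [Nat.cast_sum, Finset.sum_congr rfl e1, Finset.sum_sub_distrib, Finset.sum_sub_distrib,
      sum_St L f hb.1 t]
    unfold colO
    push_cast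
    ring
  · intro i _ j _ hij
    rw [Function.onFun, Finset.disjoint_left]
    intro x hx hx'
    rw [Finset.mem_Ico] at hx hx'
    exact hij (col_unique (by omega) hx.2 (by omega) hx'.2)

theorem sepChain_of_word (T L : ℕ) (f : ℕ → ℤ) (lo hi : ℤ → ℤ) (hg : Good T f)
    (hb : Boxed T L f lo hi) :
    ∃ k, Nonempty (SepChain (∑ i ∈ Finset.range L, (hi i - lo i).toNat) k T) := by
  refine ⟨(aboveS L f lo hi 0).card, ⟨NatChain.toSep
    { S := aboveS L f lo hi, bd := ?_, card_eq := ?_, ne := ?_, sep := ?_ }⟩⟩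
  · intro t ht x hx
    rw [mem_aboveS] at hx
    obtain ⟨i, h1, _, h3⟩ := hx
    have h4 := colO_mono (lo := lo) (hi := hi) (show i + 1 ≤ L from h1)
    have h5 : colO lo hi L = ∑ i ∈ Finset.range L, (hi i - lo i).toNat := rfl
    omega
  · intro t ht
    have h1 := card_aboveS hb ht
    have h2 := card_aboveS hb (Nat.zero_le T)
    omega
  · intro t ht h
    obtain ⟨h0, h1⟩ := hb.1 t
    obtain ⟨c, hc⟩ := Int.eq_ofNat_of_zero_le h0
    have hcL : c < L := by
      rw [hc] at h1
      have : ((c : ℤ)) < L := by linarith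
      exact_mod_cast this
    obtain ⟨e1, e2⟩ := colU_facts hb ht.le hcL
    obtain ⟨e3, e4⟩ := colU_facts hb (show t + 1 ≤ T from ht) hcL
    have e5 : St f (t + 1) c = St f t c + 1 := by
      rw [St_succ, hc]
      simp [dl]
    have h2 : colO lo hi c + colU f lo t c ∈ aboveS L f lo hi t := by
      rw [mem_aboveS]
      refine ⟨c, hcL, le_rfl, ?_⟩
      rw [colO_succ]
      omega
    rw [h, mem_aboveS] at h2
    obtain ⟨j, _, h3, h4⟩ := h2
    have h5 : j = c := by
      refine col_unique (lo := lo) (hi := hi) (x := colO lo hi c + colU f lo t c)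
        (by omega) h4 (by omega) ?_
      rw [colO_succ]
      omega
    subst h5
    omega
  · intro s t hst ht x hx hx' y hy hy'
    rw [mem_aboveS] at hx hy
    obtain ⟨i, hiL, hi1, hi2⟩ := hx
    obtain ⟨j, hjL, hj1, hj2⟩ := hy
    have hx2 : x < colO lo hi i + colU f lo t i := by
      by_contra hcon
      exact hx' (mem_aboveS.2 ⟨i, hiL, not_lt.1 hcon, hi2⟩)
    have hy2 : y < colO lo hi j + colU f lo s j := by
      by_contra hcon
      exact hy' (mem_aboveS.2 ⟨j, hjL, not_lt.1 hcon, hj2⟩)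
    obtain ⟨a1, _⟩ := colU_facts hb (hst.le.trans ht) hiL
    obtain ⟨a2, _⟩ := colU_facts hb ht hiL
    obtain ⟨a3, _⟩ := colU_facts hb (hst.le.trans ht) hjL
    obtain ⟨a4, _⟩ := colU_facts hb ht hjL
    obtain ⟨b, p1, _, p3, _⟩ := hg.1 s t hst ht
    have hib : (i : ℤ) ≤ b := by
      by_contra hcon
      have := p3 i (not_le.1 hcon)
      simp only at this
      omega
    have hjb : b < (j : ℤ) := by
      by_contra hcon
      have := p1 j (not_lt.1 hcon)
      simp only at this
      omega
    have hij : i < j := by exact_mod_cast lt_of_le_of_lt hib hjb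
    have := colO_mono (lo := lo) (hi := hi) (show i + 1 ≤ j from hij)
    omega

end

end P065HP
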