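import Vale.Agent.P065.HP.Win
import Vale.Agent.P065.HP.Box
import Vale.Agent.P065.HP.WordSep

/-!
# Long chains of strongly separated sets
-/

namespace P065HP

theorem core : ∃ C : ℕ, 1 ≤ C ∧ ∀ l : ℕ, ∃ N k T : ℕ, N ≤ C * 256 ^ l ∧ 512 ^ l ≤ T ∧
    Nonempty (SepChain N k T) := by
  obtain ⟨C, hC, h⟩ := box_iter
  refine ⟨C, hC, fun l => ?_⟩
  obtain ⟨L, lo, hi, hb, hN⟩ := h l
  obtain ⟨k, hk⟩ := sepChain_of_word (512 ^ l) L _ lo hi (good_iter l) hb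
  exact ⟨_, k, 512 ^ l, hN, le_rfl, hk⟩

end P065HP
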