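import Vale.Agent.P065.HP.Tile

/-!
# Kernel-checked window scans (step +1 and the periodic part)
-/

namespace P065HP

/-- Periodic master word. -/
def mp (s : Bool) : List ℕ := (List.replicate 5 (per s)).flatten

/-- Master word of a step `+1`: five periods and the end of a tile, then four periods of the
next tile; letters shifted by `2`. -/
def mjp (s : Bool) : List ℕ :=
  (mp s ++ last s 1).map (· + 2) ++ ((List.replicate 4 (per false)).flatten).map (· + 4)

/-- Nine zeros. -/
def z9 : List ℕ := [0, 0, 0, 0, 0, 0, 0, 0, 0]

set_option maxRecDepth 100000 in
theorem mp_false : allP 118 z5 32 (mp false) = true := by decide +kernel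

set_option maxRecDepth 100000 in
theorem mp_true : allP 118 z5 32 (mp true) = true := by decide +kernel

set_option maxRecDepth 100000 in
theorem mjp_false : allP 118 z9 192 (mjp false) = true := by decide +kernel

set_option maxRecDepth 100000 in
theorem mjp_true : allP 118 z9 192 (mjp true) = true := by decide +kernel

end P065HP
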