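import Vale.Agent.P065.HP.Tile

/-!
# Kernel-checked window scans (step -1)
-/

namespace P065HP

/-- Master word of a step `-1`: five periods and the end of a tile (letters shifted by `2`),
then four periods of the next tile (letters shifted by `2 - 2 = 0`). -/
def mjm (s : Bool) : List ℕ :=
  ((List.replicate 5 (per s)).flatten ++ last s (-1)).map (· + 2) ++
    (List.replicate 4 (per true)).flatten

set_option maxRecDepth 100000 in
theorem mjm_false : allP 118 [0, 0, 0, 0, 0, 0, 0, 0, 0] 192 (mjm false) = true := by
  decide +kernel

set_option maxRecDepth 100000 in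
theorem mjm_true : allP 118 [0, 0, 0, 0, 0, 0, 0, 0, 0] 192 (mjm true) = true := by
  decide +kernel

end P065HP
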