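import Vale.Agent.P065.HP.Word

/-!
# A Boolean test for the sign pattern, on lists of counts
-/

namespace P065HP

/-- Scan of a list of counts; `s` is the state, `p` the previous count.
States: 0 nothing positive yet, 1 last difference positive, 2 one zero since the last positive
difference, 3 at least two zeros, 4 a negative difference was seen. -/
def run : List ℕ → ℕ → ℕ → Bool
  | [], s, p => if p = 0 then Nat.beq s 4 else (Nat.beq s 1 || Nat.beq s 2 || Nat.beq s 4)
  | x :: l, s, p =>
    if p < x then (!(Nat.beq s 4)) && run l 1 x
    else if x = p then run l (if s = 1 then 2 else if s = 2 then 3 else s) x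
    else (Nat.beq s 1 || Nat.beq s 2 || Nat.beq s 4) && run l 4 x

/-- Increase the `b`-th entry. -/
def incr : ℕ → List ℕ → List ℕ
  | _, [] => []
  | 0, x :: xs => (x + 1) :: xs
  | n + 1, x :: xs => x :: incr n xs

/-- Check the pattern for all nonempty prefixes of length at most the fuel. -/
def scanP : ℕ → List ℕ → List ℕ → Bool
  | _, _, [] => true
  | 0, _, _ => true
  | L + 1, c, b :: w => run (incr b c) 0 0 && scanP L (incr b c) w

/-- Check the pattern for all windows of length at most `L` starting among the first `m`
letters. -/
def allP (L : ℕ) (z : List ℕ) : ℕ → List ℕ → Bool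
  | _, [] => true
  | 0, _ => true
  | m + 1, b :: w => scanP L z (b :: w) && allP L z m w

end P065HP
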