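import Vale.Agent.P065.HP.Run

/-!
# Soundness of the Boolean pattern test
-/

namespace P065HP

/-- Difference of a count function. -/
def df (c : ℤ → ℤ) (i : ℤ) : ℤ := c i - c (i - 1)

/-- From `j` on: nonpositive differences. -/
def Down (c : ℤ → ℤ) (j : ℤ) : Prop := ∀ i, j ≤ i → df c i ≤ 0

/-- From `j` on: the pattern. -/
def Tail (c : ℤ → ℤ) (j : ℤ) : Prop :=
  ∃ b, j ≤ b ∧ (∀ i, j ≤ i → i ≤ b → 0 ≤ df c i) ∧ 0 < df c b ∧ (∀ i, b < i → df c i ≤ 0) ∧
    df c (b + 1) + df c (b + 2) < 0

theorem Tail.of_succ {c : ℤ → ℤ} {j : ℤ} (h : Tail c (j + 1)) (h0 : 0 ≤ df c j) : Tail c j := by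
  obtain ⟨b, hb, h1, h2, h3, h4⟩ := h
  refine ⟨b, by omega, fun i hi hib => ?_, h2, h3, h4⟩
  rcases eq_or_lt_of_le hi with h | h
  · rw [← h]; exact h0
  · exact h1 i (by omega) hib

theorem Down.of_succ {c : ℤ → ℤ} {j : ℤ} (h : Down c (j + 1)) (h0 : df c j ≤ 0) : Down c j := by
  intro i hi
  rcases eq_or_lt_of_le hi with h' | h'
  · rw [← h']; exact h0
  · exact h i (by omega)

theorem nbt {a b : ℕ} : Nat.beq a b = true ↔ a = b :=
  ⟨Nat.eq_of_beq_eq_true, fun h => h ▸ Nat.beq_refl a⟩

theorem run_sound (l : List ℕ) : ∀ (s p : ℕ) (c : ℤ → ℤ) (j : ℤ), c (j - 1) = p →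
    (∀ n : ℕ, c (j + n) = (l.getD n 0 : ℕ)) → run l s p = true → s ≤ 4 →
    (s = 4 → Down c j) ∧ ((s = 0 ∨ s = 3) → Tail c j) ∧
    (s = 2 → Tail c j ∨ (df c j < 0 ∧ Down c j)) ∧
    (s = 1 → Tail c j ∨ (df c j + df c (j + 1) < 0 ∧ Down c j)) := by
  induction l with
  | nil =>
    intro s p c j hp hc hr hs
    have hc' : ∀ i, j ≤ i → c i = 0 := by
      intro i hi
      have := hc (i - j).toNat
      rw [show j + ((i - j).toNat : ℤ) = i by omega] at this
      simpa using this
    have hj : df c j = -p := by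
      unfold df; rw [hc' j le_rfl, hp]; ring
    have hj1 : ∀ i, j < i → df c i = 0 := by
      intro i hi
      unfold df; rw [hc' i (by omega), hc' (i - 1) (by omega)]; ring
    have hd : Down c j := by
      intro i hi
      rcases eq_or_lt_of_le hi with h' | h'
      · rw [← h', hj]; omega
      · rw [hj1 i h']
    unfold run at hr
    split_ifs at hr with h0
    · have hs4 : s = 4 := by simpa using hr
      subst hs4
      exact ⟨fun _ => hd, fun h => by omega, fun h => by omega, fun h => by omega⟩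
    · have hs' : s = 1 ∨ s = 2 ∨ s = 4 := by
        simp only [nbt, Bool.or_eq_true] at hr
        omega
      have hlt : df c j < 0 := by rw [hj]; omega
      refine ⟨fun _ => hd, fun h => by omega, fun _ => Or.inr ⟨hlt, hd⟩, fun _ => Or.inr ⟨?_, hd⟩⟩
      rw [hj1 (j + 1) (by omega)]; omega
  | cons x l ih =>
    intro s p c j hp hc hr hs
    have hx : c j = x := by simpa using hc 0
    have hcs : ∀ n : ℕ, c (j + 1 + n) = (l.getD n 0 : ℕ) := by
      intro n
      have := hc (n + 1)
      rw [show j + 1 + (n : ℤ) = j + ((n + 1 : ℕ) : ℤ) by push_cast; ring, this]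
      simp
    have hp' : c (j + 1 - 1) = x := by rw [show j + 1 - 1 = j by ring]; exact hx
    have hdf : df c j = (x : ℤ) - p := by unfold df; rw [hx, hp]
    unfold run at hr
    by_cases h1 : p < x
    · -- up
      rw [if_pos h1] at hr
      simp only [Bool.and_eq_true, Bool.not_eq_true'] at hr
      obtain ⟨hs4', hr⟩ := hr
      have hs4 : ¬ s = 4 := by
        intro h
        rw [nbt.2 h] at hs4'
        exact Bool.noConfusion hs4'
      have IH := (ih 1 x c (j + 1) hp' hcs hr (by omega)).2.2.2 rfl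
      have hpos : 0 < df c j := by rw [hdf]; omega
      have hT : Tail c j := by
        rcases IH with h | ⟨ha, hb⟩
        · exact h.of_succ hpos.le
        · refine ⟨j, le_rfl, fun i hi hi' => ?_, hpos, fun i hi => hb i (by omega), ?_⟩
          · rw [le_antisymm hi' hi]; exact hpos.le
          · rw [show j + 2 = j + 1 + 1 by ring]; exact ha
      exact ⟨fun h => absurd h hs4, fun _ => hT, fun _ => Or.inl hT, fun _ => Or.inl hT⟩
    rw [if_neg h1] at hr
    by_cases h2 : x = p
    · -- equal
      rw [if_pos h2] at hr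
      have hz : df c j = 0 := by rw [hdf]; omega
      have hx2 : (x : ℕ) = p := h2
      have : s = 0 ∨ s = 1 ∨ s = 2 ∨ s = 3 ∨ s = 4 := by omega
      rcases this with rfl | rfl | rfl | rfl | rfl
      · have IH := ih _ x c (j + 1) hp' hcs hr (by simp)
        have h0 := IH.2.1 (by simp)
        exact ⟨fun h => by omega, fun _ => h0.of_succ hz.ge, fun h => by omega, fun h => by omega⟩
      · have IH := ih _ x c (j + 1) hp' hcs hr (by simp)
        have h0 := IH.2.2.1 (by simp)
        refine ⟨fun h => by omega, fun h => by omega, fun h => by omega, fun _ => ?_⟩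
        rcases h0 with h | ⟨ha, hb⟩
        · exact Or.inl (h.of_succ hz.ge)
        · exact Or.inr ⟨by omega, hb.of_succ hz.le⟩
      · have IH := ih _ x c (j + 1) hp' hcs hr (by simp)
        have h0 := IH.2.1 (by simp)
        exact ⟨fun h => by omega, fun h => by omega, fun _ => Or.inl (h0.of_succ hz.ge),
          fun h => by omega⟩
      · have IH := ih _ x c (j + 1) hp' hcs hr (by simp)
        have h0 := IH.2.1 (by simp)
        exact ⟨fun h => by omega, fun _ => h0.of_succ hz.ge, fun h => by omega, fun h => by omega⟩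
      · have IH := ih _ x c (j + 1) hp' hcs hr (by simp)
        have h0 := IH.1 (by simp)
        exact ⟨fun _ => h0.of_succ hz.le, fun h => by omega, fun h => by omega, fun h => by omega⟩
    · -- down
      rw [if_neg h2] at hr
      simp only [Bool.and_eq_true, Bool.or_eq_true, nbt] at hr
      obtain ⟨hs4, hr⟩ := hr
      have IH := (ih 4 x c (j + 1) hp' hcs hr (by omega)).1 rfl
      have hneg : df c j < 0 := by rw [hdf]; omega
      have hD : Down c j := IH.of_succ hneg.le
      refine ⟨fun _ => hD, fun h => by omega, fun _ => Or.inr ⟨hneg, hD⟩, fun _ => Or.inr ⟨?_, hD⟩⟩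
      have := IH (j + 1) le_rfl
      omega

/-- Counts as a function on the integers. -/
def cf (l : List ℕ) (i : ℤ) : ℤ := if 0 ≤ i then (l.getD i.toNat 0 : ℕ) else 0

theorem run_pat (l : List ℕ) (h : run l 0 0 = true) : Pat (df (cf l)) := by
  have H := (run_sound l 0 0 (cf l) 0 (by simp [cf]) (fun n => by simp [cf]) h (by omega)).2.1
    (Or.inl rfl)
  obtain ⟨b, hb, h1, h2, h3, h4⟩ := H
  refine ⟨b, fun i hi => ?_, h2, h3, h4⟩
  by_cases hi0 : 0 ≤ i
  · exact h1 i hi0 hi
  · unfold df cf
    rw [if_neg hi0, if_neg (by omega)]; simp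

end P065HP
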