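import Vale.Agent.P065.HP.RunS

/-!
# Soundness of the window scans
-/

namespace P065HP

theorem Pat.shift {X : ℤ → ℤ} (h : Pat X) (k : ℤ) : Pat (fun x => X (x - k)) := by
  obtain ⟨b, h1, h2, h3, h4⟩ := h
  refine ⟨b + k, fun i hi => h1 _ (by omega), ?_, fun i hi => h3 _ (by omega), ?_⟩
  · show 0 < X (b + k - k)
    rw [show b + k - k = b by ring]; exact h2
  · show X (b + k + 1 - k) + X (b + k + 2 - k) < 0
    rw [show b + k + 1 - k = b + 1 by ring, show b + k + 2 - k = b + 2 by ring]; exact h4

theorem Pat.congr {X Y : ℤ → ℤ} (h : Pat X) (e : ∀ x, Y x = X x) : Pat Y := by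
  have : Y = X := funext e
  rw [this]; exact h

theorem incr_length (b : ℕ) (c : List ℕ) : (incr b c).length = c.length := by
  induction c generalizing b with
  | nil => cases b <;> rfl
  | cons x c ih => cases b <;> simp [incr, ih]

theorem incr_getD (b : ℕ) (c : List ℕ) (hb : b < c.length) (i : ℕ) :
    (incr b c).getD i 0 = c.getD i 0 + if i = b then 1 else 0 := by
  induction c generalizing b i with
  | nil => simp at hb
  | cons x c ih =>
    cases b with
    | zero => cases i <;> simp [incr]
    | succ b =>
      cases i with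
      | zero => simp [incr]
      | succ i =>
        have := ih b (by simpa using hb) i
        simpa [incr] using this

theorem cf_incr (b : ℕ) (c : List ℕ) (hb : b < c.length) (i : ℤ) :
    cf (incr b c) i = cf c i + if i = b then 1 else 0 := by
  unfold cf
  by_cases hi : 0 ≤ i
  · rw [if_pos hi, if_pos hi, incr_getD b c hb]
    by_cases h : i = b
    · rw [if_pos h, if_pos (by omega)]; push_cast; ring
    · rw [if_neg h, if_neg (by omega)]; push_cast; ring
  · rw [if_neg hi, if_neg hi, if_neg (by omega)]; ring

theorem df_incr (b : ℕ) (c : List ℕ) (hb : b < c.length) (i : ℤ) :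
    df (cf (incr b c)) i = df (cf c) i + dl b i := by
  unfold df dl
  rw [cf_incr b c hb, cf_incr b c hb]
  have : (if i - 1 = (b : ℤ) then (1 : ℤ) else 0) = if i = (b : ℤ) + 1 then 1 else 0 := by
    split_ifs <;> omega
  rw [this]; ring

/-- Total effect of a word. -/
def vec (u : List ℕ) (x : ℤ) : ℤ := (u.map (fun b => dl (b : ℤ) x)).sum

theorem vec_cons (b : ℕ) (u : List ℕ) (x : ℤ) : vec (b :: u) x = dl b x + vec u x := by
  simp [vec]

theorem vec_nil (x : ℤ) : vec [] x = 0 := by simp [vec]

theorem vec_append (u v : List ℕ) (x : ℤ) : vec (u ++ v) x = vec u x + vec v x := by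
  simp [vec]

theorem scanP_sound (w : List ℕ) : ∀ (L : ℕ) (c : List ℕ), (∀ b ∈ w, b < c.length) →
    scanP L c w = true → ∀ n, 1 ≤ n → n ≤ L → n ≤ w.length →
    Pat (fun x => df (cf c) x + vec (w.take n) x) := by
  induction w with
  | nil => intro L c _ _ n h1 _ h3; simp at h3; omega
  | cons b w ih =>
    intro L c hK hs n h1 h2 h3
    cases L with
    | zero => omega
    | succ L =>
      simp only [scanP, Bool.and_eq_true] at hs
      have hb : b < c.length := hK b (by simp)
      have e : ∀ m x, df (cf c) x + vec ((b :: w).take (m + 1)) x =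
          df (cf (incr b c)) x + vec (w.take m) x := by
        intro m x
        rw [List.take_succ_cons, vec_cons, df_incr b c hb]; ring
      obtain ⟨m, rfl⟩ : ∃ m, n = m + 1 := ⟨n - 1, by omega⟩
      refine Pat.congr ?_ (e m)
      by_cases hm : m = 0
      · subst hm
        refine (run_pat _ hs.1).congr (fun x => ?_)
        simp [vec_nil]
      · have hlen : (b :: w).length = w.length + 1 := rfl
        exact ih L (incr b c) (fun y hy => by rw [incr_length]; exact hK y (by simp [hy])) hs.2 m
          (by omega) (by omega) (by omega)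

theorem allP_sound (L : ℕ) (z : List ℕ) (w : List ℕ) : ∀ m, (∀ b ∈ w, b < z.length) →
    allP L z m w = true → ∀ s, s < m → ∀ n, 1 ≤ n → n ≤ L → s + n ≤ w.length →
    Pat (fun x => df (cf z) x + vec ((w.drop s).take n) x) := by
  induction w with
  | nil => intro m _ _ s _ n h1 _ h3; simp at h3; omega
  | cons b w ih =>
    intro m hK hs s hsm n h1 h2 h3
    cases m with
    | zero => omega
    | succ m =>
      simp only [allP, Bool.and_eq_true] at hs
      cases s with
      | zero => exact scanP_sound (b :: w) L z hK hs.1 n h1 h2 (by omega)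
      | succ s =>
        have hlen : (b :: w).length = w.length + 1 := rfl
        exact ih m (fun y hy => hK y (by simp [hy])) hs.2 s (by omega) n h1 h2 (by omega)

theorem vec_eq_sum (u : List ℕ) (x : ℤ) :
    vec u x = ∑ p ∈ Finset.range u.length, dl (u.getD p 0 : ℕ) x := by
  induction u with
  | nil => simp [vec]
  | cons b u ih =>
    rw [vec_cons, List.length_cons, Finset.sum_range_succ', ih]
    simp [add_comm]

theorem vec_slice (w : List ℕ) (s n : ℕ) (h : s + n ≤ w.length) (x : ℤ) :
    vec ((w.drop s).take n) x = ∑ p ∈ Finset.range n, dl (w.getD (s + p) 0 : ℕ) x := by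
  rw [vec_eq_sum]
  have hl : ((w.drop s).take n).length = n := by
    rw [List.length_take, List.length_drop]; omega
  rw [hl]
  refine Finset.sum_congr rfl (fun p hp => ?_)
  rw [Finset.mem_range] at hp
  have e : ((w.drop s).take n).getD p 0 = w.getD (s + p) 0 := by
    rw [List.getD_eq_getElem?_getD, List.getD_eq_getElem?_getD, List.getElem?_take]
    rw [if_pos hp, List.getElem?_drop]
  rw [e]

theorem dl_shift (b k x : ℤ) : dl (b + k) x = dl b (x - k) := by
  unfold dl
  have h1 : (x = b + k) ↔ (x - k = b) := by constructor <;> intro h <;> omega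
  have h2 : (x = b + k + 1) ↔ (x - k = b + 1) := by constructor <;> intro h <;> omega
  simp only [h1, h2]

/-- A window of `f` whose letters are a slice of `w` shifted by `k`. -/
theorem pat_of_slice {f : ℕ → ℤ} {w z : List ℕ} {L m : ℕ} (k : ℤ)
    (hK : ∀ b ∈ w, b < z.length) (hz : ∀ x, df (cf z) x = 0) (hA : allP L z m w = true)
    {t s n : ℕ} (hs : s < m) (h1 : 1 ≤ n) (h2 : n ≤ L) (h3 : s + n ≤ w.length)
    (hf : ∀ p, p < n → f (t + p) = (w.getD (s + p) 0 : ℕ) + k) :
    Pat (fun i => St f (t + n) i - St f t i) := by
  have H := (allP_sound L z w m hK hA s hs n h1 h2 h3).shift k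
  refine H.congr (fun x => ?_)
  show St f (t + n) x - St f t x = df (cf z) (x - k) + vec ((w.drop s).take n) (x - k)
  rw [hz, vec_slice w s n h3, St, St, Finset.sum_range_add]
  simp only [add_sub_cancel_left, zero_add]
  refine Finset.sum_congr rfl (fun p hp => ?_)
  rw [hf p (Finset.mem_range.1 hp), dl_shift]

end P065HP
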