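import Vale.Agent.P065.HP.Step
import Vale.Agent.P065.HP.MastA
import Vale.Agent.P065.HP.MastB

/-!
# Short windows of the refined word
-/

namespace P065HP

theorem getD_flat (l : List ℕ) (k n : ℕ) (h : n < k * l.length) :
    ((List.replicate k l).flatten).getD n 0 = l.getD (n % l.length) 0 := by
  induction k generalizing n with
  | zero => omega
  | succ k ih =>
    rw [List.replicate_succ, List.flatten_cons]
    by_cases hn : n < l.length
    · rw [getD_app_left _ _ _ hn, Nat.mod_eq_of_lt hn]
    · have hn' : l.length ≤ n := by omega
      have h2 : n - l.length < k * l.length := by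
        have : (k + 1) * l.length = k * l.length + l.length := by ring
        omega
      rw [getD_app_right _ _ _ hn', ih _ h2]
      congr 1
      conv_rhs => rw [← Nat.sub_add_cancel hn']
      rw [Nat.add_mod_right]

theorem tl_body (s : Bool) (d : ℤ) (u : ℕ) (hu : u < 480) :
    (tl s d).getD u 0 = (per s).getD (u % 32) 0 := by
  unfold tl
  rw [getD_app_left _ _ _ (by rw [body_length]; exact hu)]
  unfold body
  rw [getD_flat _ _ _ (by rw [per_length]; omega), per_length]

theorem tl_last (s : Bool) (d : ℤ) (u : ℕ) (hu : 480 ≤ u) :
    (tl s d).getD u 0 = (last s d).getD (u - 480) 0 := by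
  unfold tl
  rw [getD_app_right _ _ _ (by rw [body_length]; exact hu), body_length]

theorem fine_body (f : ℕ → ℤ) (i u : ℕ) (hu : u < 480) :
    fine f (512 * i + u) = ((per (sg f i)).getD (u % 32) 0 : ℕ) + 2 * f i := by
  rw [fine_block f i u (by omega)]; unfold tile; rw [tl_body _ _ _ hu]

theorem fine_last (f : ℕ → ℤ) (i u : ℕ) (h1 : 480 ≤ u) (h2 : u < 512) :
    fine f (512 * i + u) =
      ((last (sg f i) (f (i + 1) - f i)).getD (u - 480) 0 : ℕ) + 2 * f i := by
  rw [fine_block f i u (by omega)]; unfold tile; rw [tl_last _ _ _ h1]

theorem fine_next (f : ℕ → ℤ) (i u : ℕ) (h1 : 512 ≤ u) (h2 : u < 992) :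
    fine f (512 * i + u) =
      ((per (sg f (i + 1))).getD ((u - 512) % 32) 0 : ℕ) + 2 * f (i + 1) := by
  rw [show 512 * i + u = 512 * (i + 1) + (u - 512) by omega, fine_body f (i + 1) _ (by omega)]

theorem per_lt (s : Bool) : ∀ b ∈ per s, b < 5 := by
  cases s <;> decide

theorem last_lt (s : Bool) (d : ℤ) : ∀ b ∈ last s d, b < 5 := by
  intro b hb
  exact tl_lt s d b (List.mem_append_right _ hb)

theorem mp_length (s : Bool) : (mp s).length = 160 := by
  cases s <;> decide +kernel

theorem mp_lt (s : Bool) : ∀ b ∈ mp s, b < 5 := by
  intro b hb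
  unfold mp at hb
  rw [List.mem_flatten] at hb
  obtain ⟨l, hl, hb⟩ := hb
  rw [List.mem_replicate] at hl
  rw [hl.2] at hb
  exact per_lt s b hb

theorem cf_z9 (x : ℤ) : df (cf z9) x = 0 := by
  have h : ∀ y, cf z9 y = 0 := by
    intro y
    unfold cf z9
    split_ifs
    · have : ∀ n, [0, 0, 0, 0, 0, 0, 0, 0, 0].getD n 0 = 0 := by
        intro n
        match n with
        | 0 => rfl
        | 1 => rfl
        | 2 => rfl
        | 3 => rfl
        | 4 => rfl
        | 5 => rfl
        | 6 => rfl
        | 7 => rfl
        | 8 => rfl
        | n + 9 => simp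
      rw [this]; rfl
    · rfl
  unfold df; rw [h, h]; rfl

theorem mp_getD (s : Bool) (u : ℕ) (hu : u < 160) :
    (mp s).getD u 0 = (per s).getD (u % 32) 0 := by
  unfold mp
  rw [getD_flat _ _ _ (by rw [per_length]; omega), per_length]

theorem pure_window (f : ℕ → ℤ) (t n : ℕ) (s : Bool) (k : ℤ) (h1 : 1 ≤ n) (h2 : n ≤ 118)
    (r : ℕ) (hf : ∀ p, p < n → fine f (t + p) = ((per s).getD ((r + p) % 32) 0 : ℕ) + k) :
    Pat (fun x => St (fine f) (t + n) x - St (fine f) t x) := by
  have hA : allP 118 z5 32 (mp s) = true := by
    cases s
    · exact mp_false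
    · exact mp_true
  refine pat_of_slice (w := mp s) (z := z5) (L := 118) (m := 32) (s := r % 32) k
    (mp_lt s) cf_z5 hA (by omega) h1 h2 (by rw [mp_length]; omega) (fun p hp => ?_)
  have e : (r % 32 + p) % 32 = (r + p) % 32 := by omega
  rw [hf p hp, mp_getD s _ (by omega), e]

theorem short_window (f : ℕ → ℤ) (hf : ∀ n, -1 ≤ f (n + 1) - f n ∧ f (n + 1) - f n ≤ 1)
    (t n : ℕ) (h1 : 1 ≤ n) (h2 : n ≤ 118) :
    Pat (fun x => St (fine f) (t + n) x - St (fine f) t x) := by
  obtain ⟨i, r, hr, rfl⟩ : ∃ i r, r < 512 ∧ t = 512 * i + r :=
    ⟨t / 512, t % 512, by omega, by omega⟩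
  by_cases hI : r + n ≤ 480
  · refine pure_window f _ n (sg f i) (2 * f i) h1 h2 r (fun p hp => ?_)
    rw [add_assoc, fine_body f i _ (by omega)]
  have hd := hf i
  by_cases hd0 : f (i + 1) - f i = 0
  · -- no change of the coarse letter
    have hsg : sg f (i + 1) = sg f i := by
      show nx (sg f i) (f (i + 1) - f i) = sg f i
      rw [hd0]; simp [nx]
    refine pure_window f _ n (sg f i) (2 * f i) h1 h2 r (fun p hp => ?_)
    rw [add_assoc]
    by_cases c1 : r + p < 480
    · rw [fine_body f i _ c1]
    by_cases c2 : r + p < 512
    · rw [fine_last f i _ (by omega) c2, hd0]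
      have e : r + p - 480 = (r + p) % 32 := by omega
      rw [e]
      simp [last]
    · rw [fine_next f i _ (by omega) (by omega), hsg]
      have e : (r + p - 512) % 32 = (r + p) % 32 := by omega
      have e2 : f (i + 1) = f i := by omega
      rw [e, e2]
  have hd1 : f (i + 1) - f i = 1 ∨ f (i + 1) - f i = -1 := by omega
  rcases hd1 with hd1 | hd1
  · -- increase
    have hsg : sg f (i + 1) = false := by
      show nx (sg f i) (f (i + 1) - f i) = false
      rw [hd1]; simp [nx]
    have hA : allP 118 z9 192 (mjp (sg f i)) = true := by
      cases sg f i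
      · exact mjp_false
      · exact mjp_true
    have hlen : (mjp (sg f i)).length = 320 := by
      unfold mjp
      rw [List.length_append, List.length_map, List.length_append, mp_length, last_length,
        List.length_map, List.length_flatten]
      simp [per_length]
    have hK : ∀ b ∈ mjp (sg f i), b < z9.length := by
      intro b hb
      show b < 9
      unfold mjp at hb
      rw [List.mem_append, List.mem_map, List.mem_map] at hb
      rcases hb with ⟨a, ha, rfl⟩ | ⟨a, ha, rfl⟩
      · rw [List.mem_append] at ha
        rcases ha with ha | ha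
        · have := mp_lt _ a ha; omega
        · have := last_lt _ _ a ha; omega
      · rw [List.mem_flatten] at ha
        obtain ⟨l, hl, ha⟩ := ha
        rw [List.mem_replicate] at hl
        rw [hl.2] at ha
        have := per_lt _ a ha; omega
    refine pat_of_slice (w := mjp (sg f i)) (z := z9) (L := 118) (m := 192) (s := r - 320)
      (2 * f i - 2) hK cf_z9 hA (by omega) h1 h2 (by rw [hlen]; omega) (fun p hp => ?_)
    rw [add_assoc]
    have hl1 : ((mp (sg f i) ++ last (sg f i) 1).map (· + 2)).length = 192 := by
      rw [List.length_map, List.length_append, mp_length, last_length]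
    by_cases c1 : r + p < 480
    · rw [fine_body f i _ c1]
      have e : (mjp (sg f i)).getD (r - 320 + p) 0 = (per (sg f i)).getD ((r + p) % 32) 0 + 2 := by
        unfold mjp
        rw [getD_app_left _ _ _ (by rw [hl1]; omega),
          getD_map_add _ _ _ (by rw [List.length_append, mp_length, last_length]; omega),
          getD_app_left _ _ _ (by rw [mp_length]; omega), mp_getD _ _ (by omega),
          show (r - 320 + p) % 32 = (r + p) % 32 by omega]
      rw [e]; push_cast; ring
    by_cases c2 : r + p < 512
    · rw [fine_last f i _ (by omega) c2, hd1]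
      have e : (mjp (sg f i)).getD (r - 320 + p) 0 =
          (last (sg f i) 1).getD (r + p - 480) 0 + 2 := by
        unfold mjp
        rw [getD_app_left _ _ _ (by rw [hl1]; omega),
          getD_map_add _ _ _ (by rw [List.length_append, mp_length, last_length]; omega),
          getD_app_right _ _ _ (by rw [mp_length]; omega), mp_length,
          show r - 320 + p - 160 = r + p - 480 by omega]
      rw [e]; push_cast; ring
    · rw [fine_next f i _ (by omega) (by omega), hsg]
      have e : (mjp (sg f i)).getD (r - 320 + p) 0 =
          (per false).getD ((r + p - 512) % 32) 0 + 4 := by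
        unfold mjp
        rw [getD_app_right _ _ _ (by rw [hl1]; omega), hl1,
          getD_map_add _ _ _ (by
            rw [List.length_flatten]
            simp [per_length]
            omega),
          getD_flat _ _ _ (by rw [per_length]; omega), per_length,
          show (r - 320 + p - 192) % 32 = (r + p - 512) % 32 by omega]
      rw [e]; push_cast; linarith
  · -- decrease
    have hsg : sg f (i + 1) = true := by
      show nx (sg f i) (f (i + 1) - f i) = true
      rw [hd1]; simp [nx]
    have hA : allP 118 z9 192 (mjm (sg f i)) = true := by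
      cases sg f i
      · exact mjm_false
      · exact mjm_true
    have hlen : (mjm (sg f i)).length = 320 := by
      unfold mjm
      rw [List.length_append, List.length_map, List.length_append, List.length_flatten,
        last_length, List.length_flatten]
      simp [per_length]
    have hmp : (List.replicate 5 (per (sg f i))).flatten = mp (sg f i) := rfl
    have hK : ∀ b ∈ mjm (sg f i), b < z9.length := by
      intro b hb
      show b < 9
      unfold mjm at hb
      rw [List.mem_append, List.mem_map, hmp] at hb
      rcases hb with ⟨a, ha, rfl⟩ | ha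
      · rw [List.mem_append] at ha
        rcases ha with ha | ha
        · have := mp_lt _ a ha; omega
        · have := last_lt _ _ a ha; omega
      · rw [List.mem_flatten] at ha
        obtain ⟨l, hl, ha⟩ := ha
        rw [List.mem_replicate] at hl
        rw [hl.2] at ha
        have := per_lt _ b ha; omega
    refine pat_of_slice (w := mjm (sg f i)) (z := z9) (L := 118) (m := 192) (s := r - 320)
      (2 * f i - 2) hK cf_z9 hA (by omega) h1 h2 (by rw [hlen]; omega) (fun p hp => ?_)
    rw [add_assoc]
    have hl1 : ((mp (sg f i) ++ last (sg f i) (-1)).map (· + 2)).length = 192 := by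
      rw [List.length_map, List.length_append, mp_length, last_length]
    by_cases c1 : r + p < 480
    · rw [fine_body f i _ c1]
      have e : (mjm (sg f i)).getD (r - 320 + p) 0 = (per (sg f i)).getD ((r + p) % 32) 0 + 2 := by
        unfold mjm
        rw [hmp, getD_app_left _ _ _ (by rw [hl1]; omega),
          getD_map_add _ _ _ (by rw [List.length_append, mp_length, last_length]; omega),
          getD_app_left _ _ _ (by rw [mp_length]; omega), mp_getD _ _ (by omega),
          show (r - 320 + p) % 32 = (r + p) % 32 by omega]
      rw [e]; push_cast; ring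
    by_cases c2 : r + p < 512
    · rw [fine_last f i _ (by omega) c2, hd1]
      have e : (mjm (sg f i)).getD (r - 320 + p) 0 =
          (last (sg f i) (-1)).getD (r + p - 480) 0 + 2 := by
        unfold mjm
        rw [hmp, getD_app_left _ _ _ (by rw [hl1]; omega),
          getD_map_add _ _ _ (by rw [List.length_append, mp_length, last_length]; omega),
          getD_app_right _ _ _ (by rw [mp_length]; omega), mp_length,
          show r - 320 + p - 160 = r + p - 480 by omega]
      rw [e]; push_cast; ring
    · rw [fine_next f i _ (by omega) (by omega), hsg]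
      have e : (mjm (sg f i)).getD (r - 320 + p) 0 =
          (per true).getD ((r + p - 512) % 32) 0 := by
        unfold mjm
        rw [hmp, getD_app_right _ _ _ (by rw [hl1]; omega), hl1,
          getD_flat _ _ _ (by rw [per_length]; omega), per_length,
          show (r - 320 + p - 192) % 32 = (r + p - 512) % 32 by omega]
      rw [e]; linarith

end P065HP
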