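import Vale.Agent.P065.HP.Fine

/-!
# Consecutive letters of the refined word
-/

namespace P065HP

theorem getD_app_left (l m : List ℕ) (n : ℕ) (h : n < l.length) :
    (l ++ m).getD n 0 = l.getD n 0 := by
  rw [List.getD_eq_getElem?_getD, List.getD_eq_getElem?_getD, List.getElem?_append_left h]

theorem getD_app_right (l m : List ℕ) (n : ℕ) (h : l.length ≤ n) :
    (l ++ m).getD n 0 = m.getD (n - l.length) 0 := by
  rw [List.getD_eq_getElem?_getD, List.getD_eq_getElem?_getD, List.getElem?_append_right h]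

theorem getD_map_add (l : List ℕ) (k n : ℕ) (h : n < l.length) :
    (l.map (· + k)).getD n 0 = l.getD n 0 + k := by
  rw [List.getD_eq_getElem?_getD, List.getD_eq_getElem?_getD, List.getElem?_map,
    List.getElem?_eq_getElem h]
  rfl

theorem first_tl (s : Bool) (d : ℤ) : (tl s d).getD 0 0 = if s then 3 else 1 := by
  have h : (tl s d).getD 0 0 = (body s).getD 0 0 := by
    have h1 : (tl s d).take 1 = (body s).take 1 := take_tl s d 1 (by norm_num)
    have e : ∀ l : List ℕ, l.getD 0 0 = (l.take 1).getD 0 0 := by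
      intro l; cases l <;> simp
    rw [e (tl s d), h1, ← e]
  rw [h]
  cases s <;> decide +kernel

theorem getD_append_last (l : List ℕ) (x : ℕ) (h : l.length = 512) :
    (l ++ [x]).getD 511 0 = l.getD 511 0 ∧ (l ++ [x]).getD 512 0 = x := by
  constructor
  · rw [getD_app_left _ _ _ (by omega)]
  · rw [getD_app_right _ _ _ (by omega), h]; rfl

theorem step_tl (s : Bool) (d : ℤ) (n : ℕ) (hn : n + 1 < 512) :
    (tl s d).getD n 0 ≤ (tl s d).getD (n + 1) 0 + 1 ∧
      (tl s d).getD (n + 1) 0 ≤ (tl s d).getD n 0 + 1 := by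
  have h := chk4
  simp only [Bool.and_eq_true] at h
  have A : ∀ (l : List ℕ) (x : ℕ), l.length = 512 → stepOK (l ++ [x]) = true →
      l.getD n 0 ≤ l.getD (n + 1) 0 + 1 ∧ l.getD (n + 1) 0 ≤ l.getD n 0 + 1 := by
    intro l x hl hs
    have := stepOK_sound _ hs n (by rw [List.length_append, hl]; omega)
    rwa [getD_app_left _ _ _ (by omega), getD_app_left _ _ _ (by omega)] at this
  have B : ∀ (l : List ℕ) (x : ℕ), l.length = 512 → stepOK (l.map (· + 2) ++ [x]) = true →
      l.getD n 0 ≤ l.getD (n + 1) 0 + 1 ∧ l.getD (n + 1) 0 ≤ l.getD n 0 + 1 := by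
    intro l x hl hs
    have := A (l.map (· + 2)) x (by rw [List.length_map, hl]) hs
    rw [getD_map_add _ _ _ (by omega), getD_map_add _ _ _ (by omega)] at this
    omega
  rcases tl_cases s d with e | rfl | rfl
  · rw [e]; cases s
    · exact A _ _ (tl_length _ _) h.1.1.1.1.1
    · exact A _ _ (tl_length _ _) h.1.1.1.1.2
  · cases s
    · exact A _ _ (tl_length _ _) h.1.1.1.2
    · exact A _ _ (tl_length _ _) h.1.1.2
  · cases s
    · exact B _ _ (tl_length _ _) h.1.2
    · exact B _ _ (tl_length _ _) h.2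

theorem step_last (s : Bool) (d : ℤ) (hd : -1 ≤ d ∧ d ≤ 1) :
    ((tl s d).getD 511 0 : ℤ) - 1 ≤ (if nx s d then 3 else 1) + 2 * d ∧
      (if nx s d then 3 else 1) + 2 * d ≤ ((tl s d).getD 511 0 : ℤ) + 1 := by
  have h := chk4
  simp only [Bool.and_eq_true] at h
  have A : ∀ (l : List ℕ) (x : ℕ), l.length = 512 → stepOK (l ++ [x]) = true →
      l.getD 511 0 ≤ x + 1 ∧ x ≤ l.getD 511 0 + 1 := by
    intro l x hl hs
    have := stepOK_sound _ hs 511 (by rw [List.length_append, hl]; simp)
    rwa [(getD_append_last l x hl).1, (getD_append_last l x hl).2] at this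
  have B : ∀ (l : List ℕ) (x : ℕ), l.length = 512 → stepOK (l.map (· + 2) ++ [x]) = true →
      l.getD 511 0 + 2 ≤ x + 1 ∧ x ≤ l.getD 511 0 + 2 + 1 := by
    intro l x hl hs
    have := A (l.map (· + 2)) x (by rw [List.length_map, hl]) hs
    rwa [getD_map_add _ _ _ (by omega)] at this
  have hd' : d = 0 ∨ d = 1 ∨ d = -1 := by omega
  rcases hd' with rfl | rfl | rfl
  · cases s
    · have := A _ _ (tl_length _ _) h.1.1.1.1.1
      generalize (tl false 0).getD 511 0 = u at this ⊢
      simp only [nx]; norm_num; omega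
    · have := A _ _ (tl_length _ _) h.1.1.1.1.2
      generalize (tl true 0).getD 511 0 = u at this ⊢
      simp only [nx]; norm_num; omega
  · cases s
    · have := A _ _ (tl_length _ _) h.1.1.1.2
      generalize (tl false 1).getD 511 0 = u at this ⊢
      simp only [nx]; norm_num; omega
    · have := A _ _ (tl_length _ _) h.1.1.2
      generalize (tl true 1).getD 511 0 = u at this ⊢
      simp only [nx]; norm_num; omega
  · cases s
    · have := B _ _ (tl_length _ _) h.1.2
      generalize (tl false (-1)).getD 511 0 = u at this ⊢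
      simp only [nx]; norm_num; omega
    · have := B _ _ (tl_length _ _) h.2
      generalize (tl true (-1)).getD 511 0 = u at this ⊢
      simp only [nx]; norm_num; omega

theorem fine_step (f : ℕ → ℤ) (hf : ∀ n, -1 ≤ f (n + 1) - f n ∧ f (n + 1) - f n ≤ 1) (n : ℕ) :
    -1 ≤ fine f (n + 1) - fine f n ∧ fine f (n + 1) - fine f n ≤ 1 := by
  obtain ⟨i, r, hr, rfl⟩ : ∃ i r, r < 512 ∧ n = 512 * i + r :=
    ⟨n / 512, n % 512, by omega, by omega⟩
  rw [fine_block f i r hr]
  by_cases h : r + 1 < 512
  · rw [show 512 * i + r + 1 = 512 * i + (r + 1) by ring, fine_block f i (r + 1) h]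
    have := step_tl (sg f i) (f (i + 1) - f i) r h
    unfold tile
    omega
  · have hr' : r = 511 := by omega
    subst hr'
    rw [show 512 * i + 511 + 1 = 512 * (i + 1) + 0 by ring, fine_block f (i + 1) 0 (by norm_num)]
    have h1 := step_last (sg f i) (f (i + 1) - f i) (hf i)
    have h2 : (tile f (i + 1)).getD 0 0 = if nx (sg f i) (f (i + 1) - f i) then 3 else 1 := by
      unfold tile
      rw [first_tl]
      rfl
    rw [h2]
    unfold tile
    split_ifs at h1 ⊢ <;> push_cast <;> omega

end P065HP
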