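import Vale.Agent.P065.HP.Scan

/-!
# The tile words and their verified properties
-/

namespace P065HP

/-- The basic periodic word: counts `2, 8, 12, 8, 2` of the letters `0, ..., 4`. -/
def Wl : List ℕ :=
  [1,2,2,1,2,1,1,0,0,1,1,2,1,2,2,1,2,2,3,3,4,3,3,2,2,3,3,4,3,3,2,2]

/-- End of a tile when the next coarse letter is one larger. -/
def El : List ℕ :=
  [2,2,2,1,2,1,1,0,1,0,1,1,2,2,1,1,2,2,2,3,2,3,3,4,4,3,3,2,3,2,3,3]

/-- End of a tile when the next coarse letter is one smaller. -/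
def Dl : List ℕ :=
  [2,2,2,3,3,4,3,4,3,3,2,3,3,2,3,2,2,2,1,2,1,2,2,2,1,1,1,1,0,1,0,1]

/-- Mirror image. -/
def mirw (l : List ℕ) : List ℕ := l.map (4 - ·)

/-- Period of the tiles in state `s`. -/
def per (s : Bool) : List ℕ := if s then mirw Wl else Wl

/-- Last 32 letters of a tile in state `s` when the next coarse letter differs by `d`. -/
def last (s : Bool) (d : ℤ) : List ℕ :=
  if d = 1 then (if s then mirw Dl else El)
  else if d = -1 then (if s then mirw El else Dl) else per s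

/-- The first 480 letters of a tile. -/
def body (s : Bool) : List ℕ := (List.replicate 15 (per s)).flatten

/-- The tile: 512 letters. -/
def tl (s : Bool) (d : ℤ) : List ℕ := body s ++ last s d

/-- The next state. -/
def nx (s : Bool) (d : ℤ) : Bool := if d = 1 then false else if d = -1 then true else s

/-- Scan all prefixes with a test. -/
def scanF (chk : ℕ → List ℕ → Bool) : ℕ → List ℕ → List ℕ → Bool
  | r, c, [] => chk r c
  | r, c, b :: w => chk r c && scanF chk (r + 1) (incr b c) w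

theorem scanF_sound (chk : ℕ → List ℕ → Bool) (w : List ℕ) : ∀ (r : ℕ) (c : List ℕ),
    (∀ b ∈ w, b < c.length) → scanF chk r c w = true → ∀ n, n ≤ w.length →
    ∃ c' : List ℕ, c'.length = c.length ∧
      (∀ x, df (cf c') x = df (cf c) x + vec (w.take n) x) ∧ chk (r + n) c' = true := by
  induction w with
  | nil =>
    intro r c _ hs n hn
    have : n = 0 := by simpa using hn
    subst this
    exact ⟨c, rfl, fun x => by simp [vec_nil], hs⟩
  | cons b w ih =>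
    intro r c hK hs n hn
    simp only [scanF, Bool.and_eq_true] at hs
    cases n with
    | zero => exact ⟨c, rfl, fun x => by simp [vec_nil], hs.1⟩
    | succ n =>
      have hb : b < c.length := hK b (by simp)
      obtain ⟨c', h1, h2, h3⟩ := ih (r + 1) (incr b c)
        (fun y hy => by rw [incr_length]; exact hK y (by simp [hy])) hs.2 n
        (by simpa using hn)
      refine ⟨c', by rw [h1, incr_length], fun x => ?_, ?_⟩
      · rw [h2, df_incr b c hb, List.take_succ_cons, vec_cons]; ring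
      · rw [show r + (n + 1) = r + 1 + n by ring]; exact h3

/-- Test on prefix counts. -/
def chkPF (r : ℕ) : List ℕ → Bool
  | [a, b, c, d, e] => decide (
      (a : ℤ) ≤ 32 ∧ 0 ≤ (b : ℤ) - a ∧ (b : ℤ) - a ≤ 96 ∧ 0 ≤ (d : ℤ) - e ∧ (d : ℤ) - e ≤ 96 ∧
      (e : ℤ) ≤ 32 ∧
      (-112 ≤ 16 * (a : ℤ) - r ∧ 16 * (a : ℤ) - r ≤ 112) ∧
      (-112 ≤ 16 * ((b : ℤ) - a) - 3 * r ∧ 16 * ((b : ℤ) - a) - 3 * r ≤ 112) ∧
      (-112 ≤ 16 * ((c : ℤ) - b) - 2 * r ∧ 16 * ((c : ℤ) - b) - 2 * r ≤ 112) ∧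
      (-112 ≤ 16 * ((d : ℤ) - c) + 2 * r ∧ 16 * ((d : ℤ) - c) + 2 * r ≤ 112) ∧
      (-112 ≤ 16 * ((e : ℤ) - d) + 3 * r ∧ 16 * ((e : ℤ) - d) + 3 * r ≤ 112) ∧
      (-112 ≤ r - 16 * (e : ℤ) ∧ r - 16 * (e : ℤ) ≤ 112))
  | _ => false

/-- Test for the end of a tile before a step `+1`. -/
def chkA (r : ℕ) : List ℕ → Bool
  | [_, b, c, d, e] => decide (
      16 * ((c : ℤ) - b) - 2 * r ≤ 92 ∧ 16 * (((d : ℤ) - c) - ((e : ℤ) - d)) - r ≤ 115 ∧
      -23 ≤ (r : ℤ) - 16 * e)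
  | _ => false

/-- Test for the end of a tile before a step `-1`. -/
def chkA' (r : ℕ) : List ℕ → Bool
  | [a, b, c, d, _] => decide (
      16 * (a : ℤ) - r ≤ 23 ∧ 16 * (((b : ℤ) - a) - ((c : ℤ) - b)) - r ≤ 115 ∧
      -92 ≤ 16 * ((d : ℤ) - c) + 2 * r)
  | _ => false

/-- Test for the body of a tile in state `false`. -/
def chkB (r : ℕ) : List ℕ → Bool
  | [a, b, c, d, _] => decide (
      -7 ≤ 16 * (a : ℤ) - r ∧ -3 ≤ 16 * (((b : ℤ) - a) - ((c : ℤ) - b)) - r ∧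
      -28 ≤ 16 * ((c : ℤ) - d) - 2 * r)
  | _ => false

/-- Test for the body of a tile in state `true`. -/
def chkB' (r : ℕ) : List ℕ → Bool
  | [_, b, c, d, e] => decide (
      -28 ≤ 16 * ((c : ℤ) - b) - 2 * r ∧ -3 ≤ 16 * (((d : ℤ) - c) - ((e : ℤ) - d)) - r ∧
      -7 ≤ 16 * (e : ℤ) - r)
  | _ => false

/-- Test for the total counts. -/
def chkE (r : ℕ) : List ℕ → Bool
  | [a, b, c, d, e] => decide (r = 512 →
      a = 32 ∧ b = 128 ∧ c = 192 ∧ d = 128 ∧ e = 32)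
  | _ => false

def z5 : List ℕ := [0, 0, 0, 0, 0]

set_option maxRecDepth 100000 in
theorem chk1 : (scanF chkPF 0 z5 (tl false 0) && scanF chkPF 0 z5 (tl false 1)
  && scanF chkPF 0 z5 (tl false (-1)) && scanF chkPF 0 z5 (tl true 0)
  && scanF chkPF 0 z5 (tl true 1) && scanF chkPF 0 z5 (tl true (-1))) = true := by
  decide +kernel

set_option maxRecDepth 100000 in
theorem chk2 : (scanF chkA 0 z5 (tl false 1) && scanF chkA 0 z5 (tl true 1)
  && scanF chkA' 0 z5 (tl false (-1)) && scanF chkA' 0 z5 (tl true (-1))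
  && scanF chkB 0 z5 (body false) && scanF chkB' 0 z5 (body true)) = true := by
  decide +kernel

set_option maxRecDepth 100000 in
theorem chk3 : (scanF chkE 0 z5 (tl false 0) && scanF chkE 0 z5 (tl false 1)
  && scanF chkE 0 z5 (tl false (-1)) && scanF chkE 0 z5 (tl true 0)
  && scanF chkE 0 z5 (tl true 1) && scanF chkE 0 z5 (tl true (-1))) = true := by
  decide +kernel

set_option maxRecDepth 100000 in
theorem tl_lt_aux : ((tl false 0).all (Nat.blt · 5) && (tl false 1).all (Nat.blt · 5) &&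
  (tl false (-1)).all (Nat.blt · 5) && (tl true 0).all (Nat.blt · 5) &&
  (tl true 1).all (Nat.blt · 5) && (tl true (-1)).all (Nat.blt · 5)) = true := by
  decide +kernel

/-- Only three kinds of steps matter. -/
theorem tl_cases (s : Bool) (d : ℤ) : tl s d = tl s 0 ∨ (d = 1) ∨ (d = -1) := by
  by_cases h1 : d = 1
  · exact Or.inr (Or.inl h1)
  by_cases h2 : d = -1
  · exact Or.inr (Or.inr h2)
  left
  unfold tl last
  rw [if_neg h1, if_neg h2, if_neg (by norm_num), if_neg (by norm_num)]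

theorem tl_lt (s : Bool) (d : ℤ) : ∀ b ∈ tl s d, b < 5 := by
  have h := tl_lt_aux
  simp only [Bool.and_eq_true, List.all_eq_true] at h
  have nb : ∀ b, Nat.blt b 5 = true → b < 5 := fun b hb => by
    simpa [Nat.blt_eq] using hb
  rcases tl_cases s d with e | rfl | rfl
  · rw [e]; cases s
    · exact fun b hb => nb b (h.1.1.1.1.1 b hb)
    · exact fun b hb => nb b (h.1.1.2 b hb)
  · cases s
    · exact fun b hb => nb b (h.1.1.1.1.2 b hb)
    · exact fun b hb => nb b (h.1.2 b hb)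
  · cases s
    · exact fun b hb => nb b (h.1.1.1.2 b hb)
    · exact fun b hb => nb b (h.2 b hb)

theorem body_length (s : Bool) : (body s).length = 480 := by
  cases s <;> decide +kernel

theorem last_length (s : Bool) (d : ℤ) : (last s d).length = 32 := by
  unfold last per; split_ifs <;> rfl

theorem per_length (s : Bool) : (per s).length = 32 := by
  cases s <;> rfl

theorem tl_length (s : Bool) (d : ℤ) : (tl s d).length = 512 := by
  unfold tl; rw [List.length_append, body_length, last_length]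

/-- Facts on the prefixes of a tile. -/
structure PF (r : ℤ) (X : ℤ → ℤ) : Prop where
  out : ∀ x, x < 0 ∨ 5 < x → X x = 0
  p0 : 0 ≤ X 0 ∧ X 0 ≤ 32
  p1 : 0 ≤ X 1 ∧ X 1 ≤ 96
  p4 : -96 ≤ X 4 ∧ X 4 ≤ 0
  p5 : -32 ≤ X 5 ∧ X 5 ≤ 0
  e0 : -112 ≤ 16 * X 0 - r ∧ 16 * X 0 - r ≤ 112
  e1 : -112 ≤ 16 * X 1 - 3 * r ∧ 16 * X 1 - 3 * r ≤ 112
  e2 : -112 ≤ 16 * X 2 - 2 * r ∧ 16 * X 2 - 2 * r ≤ 112
  e3 : -112 ≤ 16 * X 3 + 2 * r ∧ 16 * X 3 + 2 * r ≤ 112
  e4 : -112 ≤ 16 * X 4 + 3 * r ∧ 16 * X 4 + 3 * r ≤ 112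
  e5 : -112 ≤ 16 * X 5 + r ∧ 16 * X 5 + r ≤ 112

theorem df5 (a b c d e : ℕ) : df (cf [a,b,c,d,e]) 0 = a ∧ df (cf [a,b,c,d,e]) 1 = b - a ∧
    df (cf [a,b,c,d,e]) 2 = c - b ∧ df (cf [a,b,c,d,e]) 3 = d - c ∧
    df (cf [a,b,c,d,e]) 4 = e - d ∧ df (cf [a,b,c,d,e]) 5 = - e ∧
    ∀ x, x < 0 ∨ 5 < x → df (cf [a,b,c,d,e]) x = 0 := by
  refine ⟨by simp [df, cf], by simp [df, cf], by simp [df, cf], by simp [df, cf],
    by simp [df, cf], by simp [df, cf], ?_⟩
  intro x hx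
  have hz : ∀ y, y < 0 ∨ 4 < y → cf [a,b,c,d,e] y = 0 := by
    intro y hy
    unfold cf
    by_cases h0 : 0 ≤ y
    · rw [if_pos h0]
      obtain ⟨n, hn⟩ : ∃ n : ℕ, y.toNat = n + 5 := ⟨y.toNat - 5, by omega⟩
      rw [hn]; simp
    · rw [if_neg h0]
  unfold df
  rw [hz x (by omega), hz (x - 1) (by omega)]; simp

theorem cf_z5 (x : ℤ) : df (cf z5) x = 0 := by
  have h : ∀ y, cf z5 y = 0 := by
    intro y
    unfold cf z5
    split_ifs
    · have : ∀ n, [0, 0, 0, 0, 0].getD n 0 = 0 := by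
        intro n
        match n with
        | 0 => rfl
        | 1 => rfl
        | 2 => rfl
        | 3 => rfl
        | 4 => rfl
        | n + 5 => simp
      rw [this]; rfl
    · rfl
  unfold df; rw [h, h]; rfl

theorem len5 (c : List ℕ) (h : c.length = z5.length) : ∃ a b c' d e, c = [a, b, c', d, e] := by
  match c, h with
  | [a, b, c', d, e], _ => exact ⟨a, b, c', d, e, rfl⟩

theorem PF_of_scan (w : List ℕ) (hw : ∀ b ∈ w, b < 5) (h : scanF chkPF 0 z5 w = true) (n : ℕ)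
    (hn : n ≤ w.length) : PF n (vec (w.take n)) := by
  obtain ⟨c, h1, h2, h3⟩ := scanF_sound chkPF w 0 z5 hw h n hn
  obtain ⟨a, b, c, d, e, rfl⟩ := len5 c h1
  have hv : ∀ x, vec (w.take n) x = df (cf [a, b, c, d, e]) x := by
    intro x; rw [h2, cf_z5]; ring
  obtain ⟨q0, q1, q2, q3, q4, q5, q6⟩ := df5 a b c d e
  simp only [zero_add, chkPF, decide_eq_true_eq] at h3
  obtain ⟨g1, g2, g3, g4, g5, g6, g7, g8, g9, g10, g11, g12⟩ := h3
  constructor
  · intro x hx; rw [hv, q6 x hx]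
  all_goals simp only [hv, q0, q1, q2, q3, q4, q5]
  all_goals omega

theorem tl_PF (s : Bool) (d : ℤ) (n : ℕ) (hn : n ≤ 512) : PF n (vec ((tl s d).take n)) := by
  have h := chk1
  simp only [Bool.and_eq_true] at h
  have hl := tl_length s d
  rcases tl_cases s d with e | rfl | rfl
  · rw [e]; cases s
    · exact PF_of_scan _ (tl_lt _ _) h.1.1.1.1.1 n (by rw [tl_length]; exact hn)
    · exact PF_of_scan _ (tl_lt _ _) h.1.1.2 n (by rw [tl_length]; exact hn)
  · cases s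
    · exact PF_of_scan _ (tl_lt _ _) h.1.1.1.1.2 n (by rw [tl_length]; exact hn)
    · exact PF_of_scan _ (tl_lt _ _) h.1.2 n (by rw [tl_length]; exact hn)
  · cases s
    · exact PF_of_scan _ (tl_lt _ _) h.1.1.1.2 n (by rw [tl_length]; exact hn)
    · exact PF_of_scan _ (tl_lt _ _) h.2 n (by rw [tl_length]; exact hn)

/-- Effect of a full tile divided by 32. -/
def bs (x : ℤ) : ℤ :=
  if x = 0 then 1 else if x = 1 then 3 else if x = 2 then 2 else if x = 3 then -2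
  else if x = 4 then -3 else if x = 5 then -1 else 0

theorem full_of_scan (w : List ℕ) (hw : ∀ b ∈ w, b < 5) (h : scanF chkE 0 z5 w = true)
    (hl : w.length = 512) (x : ℤ) : vec w x = 32 * bs x := by
  obtain ⟨c, h1, h2, h3⟩ := scanF_sound chkE w 0 z5 hw h 512 hl.ge
  obtain ⟨a, b, c, d, e, rfl⟩ := len5 c h1
  rw [List.take_of_length_le hl.le] at h2
  have hv : vec w x = df (cf [a, b, c, d, e]) x := by rw [h2, cf_z5]; ring
  obtain ⟨q0, q1, q2, q3, q4, q5, q6⟩ := df5 a b c d e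
  simp only [zero_add, chkE, decide_eq_true_eq, forall_const] at h3
  obtain ⟨rfl, rfl, rfl, rfl, rfl⟩ := h3
  rw [hv]
  unfold bs
  split_ifs with g0 g1 g2 g3 g4 g5
  · rw [g0, q0]; rfl
  · rw [g1, q1]; rfl
  · rw [g2, q2]; rfl
  · rw [g3, q3]; rfl
  · rw [g4, q4]; rfl
  · rw [g5, q5]; rfl
  · rw [q6 x (by omega)]; rfl

theorem tl_full (s : Bool) (d x : ℤ) : vec (tl s d) x = 32 * bs x := by
  have h := chk3
  simp only [Bool.and_eq_true] at h
  rcases tl_cases s d with e | rfl | rfl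
  · rw [e]; cases s
    · exact full_of_scan _ (tl_lt _ _) h.1.1.1.1.1 (tl_length _ _) x
    · exact full_of_scan _ (tl_lt _ _) h.1.1.2 (tl_length _ _) x
  · cases s
    · exact full_of_scan _ (tl_lt _ _) h.1.1.1.1.2 (tl_length _ _) x
    · exact full_of_scan _ (tl_lt _ _) h.1.2 (tl_length _ _) x
  · cases s
    · exact full_of_scan _ (tl_lt _ _) h.1.1.1.2 (tl_length _ _) x
    · exact full_of_scan _ (tl_lt _ _) h.2 (tl_length _ _) x

theorem tl_A (s : Bool) (n : ℕ) (hn : n ≤ 512) (X : ℤ → ℤ)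
    (hX : ∀ x, X x = vec ((tl s 1).take n) x) :
    16 * X 2 - 2 * n ≤ 92 ∧ 16 * (X 3 - X 4) - n ≤ 115 ∧ -23 ≤ 16 * X 5 + n := by
  have h := chk2
  simp only [Bool.and_eq_true] at h
  have key : scanF chkA 0 z5 (tl s 1) = true := by
    cases s
    · exact h.1.1.1.1.1
    · exact h.1.1.1.1.2
  obtain ⟨c, h1, h2, h3⟩ := scanF_sound chkA (tl s 1) 0 z5 (tl_lt _ _) key n
    (by rw [tl_length]; exact hn)
  obtain ⟨a, b, c, d, e, rfl⟩ := len5 c h1
  have hv : ∀ x, X x = df (cf [a, b, c, d, e]) x := by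
    intro x; rw [hX, h2, cf_z5]; ring
  obtain ⟨q0, q1, q2, q3, q4, q5, q6⟩ := df5 a b c d e
  simp only [zero_add, chkA, decide_eq_true_eq] at h3
  simp only [hv, q2, q3, q4, q5]
  omega

theorem tl_A' (s : Bool) (n : ℕ) (hn : n ≤ 512) (X : ℤ → ℤ)
    (hX : ∀ x, X x = vec ((tl s (-1)).take n) x) :
    16 * X 0 - n ≤ 23 ∧ 16 * (X 1 - X 2) - n ≤ 115 ∧ -92 ≤ 16 * X 3 + 2 * n := by
  have h := chk2
  simp only [Bool.and_eq_true] at h
  have key : scanF chkA' 0 z5 (tl s (-1)) = true := by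
    cases s
    · exact h.1.1.1.2
    · exact h.1.1.2
  obtain ⟨c, h1, h2, h3⟩ := scanF_sound chkA' (tl s (-1)) 0 z5 (tl_lt _ _) key n
    (by rw [tl_length]; exact hn)
  obtain ⟨a, b, c, d, e, rfl⟩ := len5 c h1
  have hv : ∀ x, X x = df (cf [a, b, c, d, e]) x := by
    intro x; rw [hX, h2, cf_z5]; ring
  obtain ⟨q0, q1, q2, q3, q4, q5, q6⟩ := df5 a b c d e
  simp only [zero_add, chkA', decide_eq_true_eq] at h3
  simp only [hv, q0, q1, q2, q3]
  omega

theorem body_lt (s : Bool) : ∀ b ∈ body s, b < 5 :=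
  fun b hb => tl_lt s 0 b (List.mem_append_left _ hb)

theorem take_tl (s : Bool) (d : ℤ) (n : ℕ) (hn : n ≤ 480) :
    (tl s d).take n = (body s).take n := by
  unfold tl
  rw [List.take_append_of_le_length (by rw [body_length]; exact hn)]

theorem tl_B (d : ℤ) (n : ℕ) (hn : n ≤ 480) (X : ℤ → ℤ)
    (hX : ∀ x, X x = vec ((tl false d).take n) x) :
    -7 ≤ 16 * X 0 - n ∧ -3 ≤ 16 * (X 1 - X 2) - n ∧ -28 ≤ - 16 * X 3 - 2 * n := by
  have h := chk2
  simp only [Bool.and_eq_true] at h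
  obtain ⟨c, h1, h2, h3⟩ := scanF_sound chkB (body false) 0 z5 (body_lt _) h.1.2 n
    (by rw [body_length]; exact hn)
  obtain ⟨a, b, c, d, e, rfl⟩ := len5 c h1
  have hv : ∀ x, X x = df (cf [a, b, c, d, e]) x := by
    intro x; rw [hX, take_tl _ _ _ hn, h2, cf_z5]; ring
  obtain ⟨q0, q1, q2, q3, q4, q5, q6⟩ := df5 a b c d e
  simp only [zero_add, chkB, decide_eq_true_eq] at h3
  simp only [hv, q0, q1, q2, q3]
  omega

theorem tl_B' (d : ℤ) (n : ℕ) (hn : n ≤ 480) (X : ℤ → ℤ)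
    (hX : ∀ x, X x = vec ((tl true d).take n) x) :
    -28 ≤ 16 * X 2 - 2 * n ∧ -3 ≤ 16 * (X 3 - X 4) - n ∧ -7 ≤ - 16 * X 5 - n := by
  have h := chk2
  simp only [Bool.and_eq_true] at h
  obtain ⟨c, h1, h2, h3⟩ := scanF_sound chkB' (body true) 0 z5 (body_lt _) h.2 n
    (by rw [body_length]; exact hn)
  obtain ⟨a, b, c, d, e, rfl⟩ := len5 c h1
  have hv : ∀ x, X x = df (cf [a, b, c, d, e]) x := by
    intro x; rw [hX, take_tl _ _ _ hn, h2, cf_z5]; ring
  obtain ⟨q0, q1, q2, q3, q4, q5, q6⟩ := df5 a b c d e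
  simp only [zero_add, chkB', decide_eq_true_eq] at h3
  simp only [hv, q2, q3, q4, q5]
  omega

end P065HP
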