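import Vale.Agent.P065.HP.Long
import Vale.Agent.P065.HP.Short

/-!
# The refinement of a good word is good
-/

namespace P065HP

theorem PF_suf {X : ℤ → ℤ} {r : ℤ} (h : PF r X) :
    PF (512 - r) (fun y => 32 * bs y - X y) := by
  obtain ⟨o, p0, p1, p4, p5, e0, e1, e2, e3, e4, e5⟩ := h
  have b0 : bs 0 = 1 := rfl
  have b1 : bs 1 = 3 := rfl
  have b2 : bs 2 = 2 := rfl
  have b3 : bs 3 = -2 := rfl
  have b4 : bs 4 = -3 := rfl
  have b5 : bs 5 = -1 := rfl
  constructor
  · intro x hx
    simp only [bs_other x hx, o x hx]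
    ring
  all_goals simp only [b0, b1, b2, b3, b4, b5]
  all_goals omega

theorem pat6 {X : ℤ → ℤ} (out : ∀ x, x < 0 ∨ 5 < x → X x = 0) (h0 : 0 ≤ X 0) (h1 : 0 ≤ X 1)
    (h2 : 0 < X 2) (h3 : X 3 ≤ 0) (h4 : X 4 ≤ 0) (h5 : X 5 ≤ 0) (h34 : X 3 + X 4 < 0) :
    Pat X := by
  refine ⟨2, ?_, h2, ?_, h34⟩
  · intro i hi
    by_cases c0 : i = 0
    · subst c0; exact h0
    by_cases c1 : i = 1
    · subst c1; exact h1
    by_cases c2 : i = 2
    · subst c2; exact h2.le
    exact (out i (by omega)).ge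
  · intro i hi
    by_cases c0 : i = 3
    · subst c0; exact h3
    by_cases c1 : i = 4
    · subst c1; exact h4
    by_cases c2 : i = 5
    · subst c2; exact h5
    exact (out i (by omega)).le

theorem pat8 {X : ℤ → ℤ} (out : ∀ x, x < 0 ∨ 7 < x → X x = 0) (h0 : 0 ≤ X 0) (h1 : 0 ≤ X 1)
    (h2 : 0 < X 2) (h43 : X 4 < X 3) (h5 : X 5 < 0) (h6 : X 6 ≤ 0) (h7 : X 7 ≤ 0) :
    Pat X := by
  have lo : ∀ i, i ≤ 2 → 0 ≤ X i := by
    intro i hi
    by_cases c0 : i = 0
    · subst c0; exact h0
    by_cases c1 : i = 1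
    · subst c1; exact h1
    by_cases c2 : i = 2
    · subst c2; exact h2.le
    exact (out i (by omega)).ge
  have hi : ∀ i, 5 ≤ i → X i ≤ 0 := by
    intro i hi
    by_cases c0 : i = 5
    · subst c0; exact h5.le
    by_cases c1 : i = 6
    · subst c1; exact h6
    by_cases c2 : i = 7
    · subst c2; exact h7
    exact (out i (by omega)).le
  by_cases t3 : X 3 ≤ 0
  · refine ⟨2, lo, h2, ?_, ?_⟩
    · intro i hi'
      by_cases c0 : i = 3
      · subst c0; exact t3
      by_cases c1 : i = 4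
      · subst c1; omega
      exact hi i (by omega)
    · rw [show (2 : ℤ) + 1 = 3 by norm_num, show (2 : ℤ) + 2 = 4 by norm_num]; omega
  by_cases t4 : X 4 ≤ 0
  · refine ⟨3, ?_, by omega, ?_, ?_⟩
    · intro i hi'
      by_cases c0 : i = 3
      · subst c0; omega
      exact lo i (by omega)
    · intro i hi'
      by_cases c1 : i = 4
      · subst c1; omega
      exact hi i (by omega)
    · rw [show (3 : ℤ) + 1 = 4 by norm_num, show (3 : ℤ) + 2 = 5 by norm_num]; omega
  · refine ⟨4, ?_, by omega, ?_, ?_⟩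
    · intro i hi'
      by_cases c0 : i = 3
      · subst c0; omega
      by_cases c1 : i = 4
      · subst c1; omega
      exact lo i (by omega)
    · intro i hi'
      exact hi i (by omega)
    · rw [show (4 : ℤ) + 1 = 5 by norm_num, show (4 : ℤ) + 2 = 6 by norm_num]; omega

theorem vec_zero_nonneg (u : List ℕ) : 0 ≤ vec u 0 := by
  induction u with
  | nil => simp [vec]
  | cons b u ih =>
    rw [vec_cons]
    have : 0 ≤ dl (b : ℤ) 0 := by
      unfold dl
      split_ifs <;> omega
    omega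

theorem vec_five_nonpos (u : List ℕ) (h : ∀ b ∈ u, b < 5) : vec u 5 ≤ 0 := by
  induction u with
  | nil => simp [vec]
  | cons b u ih =>
    rw [vec_cons]
    have hb := h b (by simp)
    have ih' := ih (fun c hc => h c (by simp [hc]))
    have : dl (b : ℤ) 5 ≤ 0 := by
      unfold dl
      split_ifs <;> omega
    omega

/-- Window inside one tile. -/
theorem win0 (s : Bool) (d : ℤ) (r q : ℕ) (h : r + 119 ≤ q) (hq : q ≤ 512) :
    Pat (fun x => vec ((tl s d).take q) x - vec ((tl s d).take r) x) := by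
  have h1 := tl_PF s d q hq
  have h2 := tl_PF s d r (by omega)
  have hs : ∀ x, vec ((tl s d).take q) x - vec ((tl s d).take r) x =
      vec (((tl s d).drop r).take (q - r)) x := by
    intro x
    have : (tl s d).take q = (tl s d).take r ++ ((tl s d).drop r).take (q - r) := by
      rw [← List.take_add, Nat.add_sub_cancel' (by omega)]
    rw [this, vec_append]; ring
  have z0 : 0 ≤ vec ((tl s d).take q) 0 - vec ((tl s d).take r) 0 := by
    rw [hs]; exact vec_zero_nonneg _
  have z5 : vec ((tl s d).take q) 5 - vec ((tl s d).take r) 5 ≤ 0 := by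
    rw [hs]
    exact vec_five_nonpos _ fun b hb => tl_lt s d b (List.mem_of_mem_drop (List.mem_of_mem_take hb))
  obtain ⟨o, p0, p1, p4, p5, e0, e1, e2, e3, e4, e5⟩ := h1
  obtain ⟨o', p0', p1', p4', p5', e0', e1', e2', e3', e4', e5'⟩ := h2
  refine pat6 (fun x hx => ?_) z0 ?_ ?_ ?_ ?_ z5 ?_
  · rw [o x hx, o' x hx]; ring
  all_goals omega

/-- Window in two consecutive tiles with the same coarse letter. -/
theorem win1 {S P : ℤ → ℤ} {k q : ℤ} (hS : PF k S) (hP : PF q P) (h : 119 ≤ k + q) :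
    Pat (fun x => S x + P x) := by
  obtain ⟨o, p0, p1, p4, p5, e0, e1, e2, e3, e4, e5⟩ := hS
  obtain ⟨o', p0', p1', p4', p5', e0', e1', e2', e3', e4', e5'⟩ := hP
  refine pat6 (fun x hx => ?_) ?_ ?_ ?_ ?_ ?_ ?_ ?_
  · rw [o x hx, o' x hx]; ring
  all_goals omega

/-- Window in two consecutive tiles, the coarse letter increases. -/
theorem win2 (s : Bool) (d : ℤ) (r q : ℕ) (hr : r ≤ 512) (hq : q ≤ 512) (h : r + 119 ≤ 512 + q) :
    Pat (fun x => (32 * bs x - vec ((tl s 1).take r) x) + vec ((tl false d).take q) (x - 2)) := by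
  have hS := PF_suf (tl_PF s 1 r hr)
  have hP := tl_PF false d q hq
  have hA := tl_A s r hr _ (fun x => rfl)
  obtain ⟨S, eS⟩ : ∃ S : ℤ → ℤ, S = fun x => 32 * bs x - vec ((tl s 1).take r) x := ⟨_, rfl⟩
  obtain ⟨P, eP⟩ : ∃ P : ℤ → ℤ, P = vec ((tl false d).take q) := ⟨_, rfl⟩
  have hSx : ∀ x, 32 * bs x - vec ((tl s 1).take r) x = S x := fun x => by rw [eS]
  have hA' : 16 * S 2 ≥ 2 * (512 - r) - 92 ∧ 16 * (S 3 - S 4) ≥ 512 - r - 115 ∧
      16 * S 5 ≤ - (512 - r) + 23 := by
    rw [eS]
    have b2 : bs 2 = 2 := rfl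
    have b3 : bs 3 = -2 := rfl
    have b4 : bs 4 = -3 := rfl
    have b5 : bs 5 = -1 := rfl
    simp only [b2, b3, b4, b5]
    omega
  have hB : q ≤ 480 → -7 ≤ 16 * P 0 - q ∧ -3 ≤ 16 * (P 1 - P 2) - q ∧ -28 ≤ - 16 * P 3 - 2 * q :=
    fun h => tl_B d q h P (fun x => by rw [eP])
  rw [← eS] at hS
  rw [← eP] at hP
  simp only [hSx]
  rw [← eP]
  obtain ⟨o, p0, p1, p4, p5, e0, e1, e2, e3, e4, e5⟩ := hS
  obtain ⟨o', p0', p1', p4', p5', e0', e1', e2', e3', e4', e5'⟩ := hP
  have om1 := o' (-1) (by omega)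
  have om2 := o' (-2) (by omega)
  have o6 := o 6 (by omega)
  have o7 := o 7 (by omega)
  refine pat8 (fun x hx => ?_) ?_ ?_ ?_ ?_ ?_ ?_ ?_
  · rw [o x (by omega), o' (x - 2) (by omega)]; ring
  · norm_num; omega
  · norm_num; omega
  · norm_num
    by_cases hq' : q ≤ 480
    · have := hB hq'; omega
    · omega
  · norm_num
    by_cases hq' : q ≤ 480
    · have := hB hq'; omega
    · omega
  · norm_num
    by_cases hq' : q ≤ 480
    · have := hB hq'; omega
    · omega
  · norm_num; omega
  · norm_num; omega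

/-- Window in two consecutive tiles, the coarse letter decreases. -/
theorem win3 (s : Bool) (d : ℤ) (r q : ℕ) (hr : r ≤ 512) (hq : q ≤ 512) (h : r + 119 ≤ 512 + q) :
    Pat (fun x => (32 * bs (x - 2) - vec ((tl s (-1)).take r) (x - 2)) +
      vec ((tl true d).take q) x) := by
  have hS := PF_suf (tl_PF s (-1) r hr)
  have hP := tl_PF true d q hq
  have hA := tl_A' s r hr _ (fun x => rfl)
  obtain ⟨S, eS⟩ : ∃ S : ℤ → ℤ, S = fun x => 32 * bs x - vec ((tl s (-1)).take r) x := ⟨_, rfl⟩
  obtain ⟨P, eP⟩ : ∃ P : ℤ → ℤ, P = vec ((tl true d).take q) := ⟨_, rfl⟩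
  have hSx : ∀ x, 32 * bs x - vec ((tl s (-1)).take r) x = S x := fun x => by rw [eS]
  have hA' : 16 * S 0 ≥ (512 - r) - 23 ∧ 16 * (S 1 - S 2) ≥ 512 - r - 115 ∧
      16 * S 3 ≤ - 2 * (512 - r) + 92 := by
    rw [eS]
    have b0 : bs 0 = 1 := rfl
    have b1 : bs 1 = 3 := rfl
    have b2 : bs 2 = 2 := rfl
    have b3 : bs 3 = -2 := rfl
    simp only [b0, b1, b2, b3]
    omega
  have hB : q ≤ 480 → -28 ≤ 16 * P 2 - 2 * q ∧ -3 ≤ 16 * (P 3 - P 4) - q ∧ -7 ≤ - 16 * P 5 - q :=
    fun h => tl_B' d q h P (fun x => by rw [eP])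
  rw [← eS] at hS
  rw [← eP] at hP
  simp only [hSx]
  rw [← eP]
  obtain ⟨o, p0, p1, p4, p5, e0, e1, e2, e3, e4, e5⟩ := hS
  obtain ⟨o', p0', p1', p4', p5', e0', e1', e2', e3', e4', e5'⟩ := hP
  have om1 := o (-1) (by omega)
  have om2 := o (-2) (by omega)
  have o6 := o' 6 (by omega)
  have o7 := o' 7 (by omega)
  refine pat8 (fun x hx => ?_) ?_ ?_ ?_ ?_ ?_ ?_ ?_
  · rw [o' x (by omega), o (x - 2) (by omega)]; ring
  · norm_num; omega
  · norm_num; omega
  · norm_num
    by_cases hq' : q ≤ 480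
    · have := hB hq'; omega
    · omega
  · norm_num
    by_cases hq' : q ≤ 480
    · have := hB hq'; omega
    · omega
  · norm_num
    by_cases hq' : q ≤ 480
    · have := hB hq'; omega
    · omega
  · norm_num; omega
  · norm_num; omega

theorem good_fine {T : ℕ} {f : ℕ → ℤ} (h : Good T f) : Good (512 * T) (fine f) := by
  obtain ⟨hw, hs⟩ := h
  refine ⟨?_, fine_step f hs⟩
  intro t t' htt ht'
  by_cases hn : t' - t ≤ 118
  · have := short_window f hs t (t' - t) (by omega) hn
    rwa [Nat.add_sub_cancel' htt.le] at this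
  obtain ⟨i, r, hr, rfl⟩ : ∃ i r, r < 512 ∧ t = 512 * i + r :=
    ⟨t / 512, t % 512, by omega, by omega⟩
  obtain ⟨j, q, hq, hq', rfl⟩ : ∃ j q, 1 ≤ q ∧ q ≤ 512 ∧ t' = 512 * j + q :=
    ⟨(t' - 1) / 512, (t' - 1) % 512 + 1, by omega, by omega, by omega⟩
  have hjT : j < T := by omega
  have hij : i ≤ j := by omega
  rcases Nat.eq_or_lt_of_le hij with rfl | hij
  · refine ((win0 (sg f i) (f (i + 1) - f i) r q (by omega) hq').shift (2 * f i)).congr ?_
    intro x
    rw [St_fine f i r hr.le, St_fine f i q hq']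
    unfold tile
    ring
  have e1 : ∀ x, St (fine f) (512 * i + r) x =
      32 * Mx (St f i) x + vec ((tile f i).take r) (x - 2 * f i) := St_fine f i r hr.le
  have e2 : ∀ x, St (fine f) (512 * j + q) x =
      32 * Mx (St f j) x + vec ((tile f j).take q) (x - 2 * f j) := St_fine f j q hq'
  have e3 : ∀ x, Mx (St f (i + 1)) x = Mx (St f i) x + bs (x - 2 * f i) := by
    intro x
    have : St f (i + 1) = fun x => St f i x + dl (f i) x := funext (St_step f i)
    rw [this, Mx_add, Mx_dl]
  rcases Nat.eq_or_lt_of_le (Nat.succ_le_of_lt hij) with hj | hj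
  · have hj : j = i + 1 := hj.symm
    subst hj
    have hd := hs i
    have hd3 : f (i + 1) - f i = 0 ∨ f (i + 1) - f i = 1 ∨ f (i + 1) - f i = -1 := by omega
    rcases hd3 with hd | hd | hd
    · have hS := PF_suf (tl_PF (sg f i) (f (i + 1) - f i) r hr.le)
      have hP := tl_PF (sg f (i + 1)) (f (i + 1 + 1) - f (i + 1)) q hq'
      refine ((win1 hS hP (by omega)).shift (2 * f i)).congr ?_
      intro x
      rw [e1, e2, e3]
      unfold tile
      rw [show 2 * f (i + 1) = 2 * f i by omega]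
      ring
    · have hg : sg f (i + 1) = false := by
        show nx (sg f i) (f (i + 1) - f i) = false
        rw [hd]; rfl
      refine ((win2 (sg f i) (f (i + 1 + 1) - f (i + 1)) r q hr.le hq' (by omega)).shift
        (2 * f i)).congr ?_
      intro x
      rw [e1, e2, e3]
      unfold tile
      rw [hg, hd, show 2 * f (i + 1) = 2 * f i + 2 by omega,
        show x - (2 * f i + 2) = x - 2 * f i - 2 by ring]
      ring
    · have hg : sg f (i + 1) = true := by
        show nx (sg f i) (f (i + 1) - f i) = true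
        rw [hd]; rfl
      refine ((win3 (sg f i) (f (i + 1 + 1) - f (i + 1)) r q hr.le hq' (by omega)).shift
        (2 * f (i + 1))).congr ?_
      intro x
      rw [e1, e2, e3]
      unfold tile
      rw [hg, hd, show 2 * f i = 2 * f (i + 1) + 2 by omega,
        show x - (2 * f (i + 1) + 2) = x - 2 * f (i + 1) - 2 by ring]
      ring
  · have hS := PF_suf (tl_PF (sg f i) (f (i + 1) - f i) r hr.le)
    have hP := tl_PF (sg f j) (f (j + 1) - f j) q hq'
    have c00 : Pat (fun x => St f j x - St f (i + 1) x) := hw (i + 1) j hj hjT.le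
    have c10 : Pat (fun x => (fun x => St f j x - St f (i + 1) x) x + dl (f i) x) :=
      (hw i j hij hjT.le).congr fun x => by
        have := St_step f i x
        simp only
        linarith
    have c01 : Pat (fun x => (fun x => St f j x - St f (i + 1) x) x + dl (f j) x) :=
      (hw (i + 1) (j + 1) (by omega) hjT).congr fun x => by rw [St_step f j]; ring
    have c11 : Pat (fun x => (fun x => St f j x - St f (i + 1) x) x + dl (f i) x + dl (f j) x) :=
      (hw i (j + 1) (by omega) hjT).congr fun x => by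
        have := St_step f i x
        have := St_step f j x
        simp only
        linarith
    refine (long_pat hS hP (by omega) (by omega) (by omega) (by omega) c00 c10 c01 c11).congr ?_
    intro x
    rw [e1, e2, Mx_sub, e3]
    unfold tile
    ring

theorem good_base : Good 1 (fun _ => 0) := by
  refine ⟨?_, fun n => by norm_num⟩
  intro s t hst ht
  have hs : s = 0 := by omega
  have ht : t = 1 := by omega
  subst hs ht
  refine ⟨0, ?_, ?_, ?_, ?_⟩
  · intro i hi
    simp only [St, dl]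
    simp only [Finset.range_one, Finset.sum_singleton, Finset.range_zero, Finset.sum_empty]
    split_ifs <;> omega
  · simp [St, dl]
  · intro i hi
    simp only [St, dl]
    simp only [Finset.range_one, Finset.sum_singleton, Finset.range_zero, Finset.sum_empty]
    split_ifs <;> omega
  · simp [St, dl]

theorem good_iter (l : ℕ) : Good (512 ^ l) (fine^[l] (fun _ => 0)) := by
  induction l with
  | zero => exact good_base
  | succ l ih =>
    rw [Function.iterate_succ_apply', pow_succ, mul_comm]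
    exact good_fine ih

end P065HP
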